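import Vale.Agent.P353.H121.Boot

/-! # Dirac type operators: symmetry, Leibniz rule, weak and strong solutions (helper121) -/

open MeasureTheory Filter Topology
open scoped ContDiff

namespace Vale.Agent.P353.H121

set_option linter.unusedSectionVars false

section Boot2

variable {ι κ : Type*} [Fintype ι] [DecidableEq ι] [Fintype κ] {F : Type*} [NormedAddCommGroup F]
  [InnerProductSpace ℂ F]

theorem lineDeriv_int_zero {h : EuclideanSpace ℝ ι → ℂ} (hh : ContDiff ℝ ∞ h)
    (hc : HasCompactSupport h) (v : EuclideanSpace ℝ ι) : ∫ x, fderiv ℝ h x v = 0 := by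
  have hd : ∀ x, HasLineDerivAt ℝ h (fderiv ℝ h x v) x v := fun x =>
    (((hh.differentiable (by simp)).differentiableAt).hasFDerivAt).hasLineDerivAt v
  have hcd : Continuous (fun x => fderiv ℝ h x v) :=
    ((hh.fderiv_right (m := ∞) (by simp)).clm_apply contDiff_const).continuous
  have hcs : HasCompactSupport (fun x => fderiv ℝ h x v) := hc.fderiv_apply (𝕜 := ℝ) _
  have h1 := integral_bilinear_hasLineDerivAt_right_eq_neg_left_of_integrable
    (μ := (volume : Measure (EuclideanSpace ℝ ι))) (f := h) (f' := fun x => fderiv ℝ h x v)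
    (g := fun _ => (1 : ℂ)) (g' := fun _ => 0) (v := v)
    (B := ContinuousLinearMap.mul ℝ ℂ) ?_ ?_ ?_ (fun x _ => hd x) (fun x _ => ?_)
  · simp only [ContinuousLinearMap.mul_apply', mul_zero, integral_zero, mul_one] at h1
    exact (neg_eq_zero.1 h1.symm)
  · simpa using hcd.integrable_of_hasCompactSupport hcs
  · simp
  · simpa using hh.continuous.integrable_of_hasCompactSupport hc
  · exact (hasFDerivAt_const (1 : ℂ) x).hasLineDerivAt v

theorem Dop_fd (A : ι → F →L[ℂ] F) (p : κ → EuclideanSpace ℝ ι → ℝ) (B : κ → F →L[ℂ] F)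
    {u : EuclideanSpace ℝ ι → F} {x : EuclideanSpace ℝ ι} (hu : DifferentiableAt ℝ u x) :
    Dop A p B u x = (-Complex.I) • ∑ k, A k (fderiv ℝ u x (EuclideanSpace.single k 1)) +
    ∑ m, (p m x : ℂ) • B m (u x) := by
  unfold Dop
  simp only [hu.lineDeriv_eq_fderiv]

theorem smooth_diff {u : EuclideanSpace ℝ ι → F} (hu : ContDiff ℝ ∞ u) (x : EuclideanSpace ℝ ι) :
    DifferentiableAt ℝ u x := (hu.differentiable (by simp)).differentiableAt

/-- real structure of a complex linear map -/
theorem clm_smooth (T : F →L[ℂ] F) {u : EuclideanSpace ℝ ι → F} (hu : ContDiff ℝ ∞ u) :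
    ContDiff ℝ ∞ fun x => T (u x) := (T.restrictScalars ℝ).contDiff.comp hu

theorem Dop_smooth (A : ι → F →L[ℂ] F) {p : κ → EuclideanSpace ℝ ι → ℝ} (B : κ → F →L[ℂ] F)
    (hp : ∀ m, ContDiff ℝ ∞ (p m)) {u : EuclideanSpace ℝ ι → F} (hu : ContDiff ℝ ∞ u) :
    ContDiff ℝ ∞ (Dop A p B u) := by
  have h1 : Dop A p B u = fun x =>
      (-Complex.I) • ∑ k, A k (fderiv ℝ u x (EuclideanSpace.single k 1)) +
      ∑ m, (p m x : ℂ) • B m (u x) := by
    ext x
    exact Dop_fd A p B (smooth_diff hu x)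
  rw [h1]
  refine ContDiff.add (ContDiff.const_smul _ (ContDiff.sum fun k _ => ?_))
    (ContDiff.sum fun m _ => ?_)
  · exact clm_smooth (A k) ((hu.fderiv_right (m := ∞) (by simp)).clm_apply contDiff_const)
  · exact (Complex.ofRealCLM.contDiff.comp (hp m)).smul (clm_smooth (B m) hu)

theorem Dop_supp (A : ι → F →L[ℂ] F) (p : κ → EuclideanSpace ℝ ι → ℝ) (B : κ → F →L[ℂ] F)
    {u : EuclideanSpace ℝ ι → F} (hu : ContDiff ℝ ∞ u) (hc : HasCompactSupport u) :
    HasCompactSupport (Dop A p B u) := by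
  refine hc.mono' fun x hx => ?_
  by_contra hn
  refine hx ?_
  rw [Dop_fd A p B (smooth_diff hu x)]
  have h1 : fderiv ℝ u x = 0 := by
    have := support_fderiv_subset ℝ (f := u)
    by_contra h
    exact hn (this h)
  have h2 : u x = 0 := image_eq_zero_of_notMem_tsupport hn
  simp [h1, h2]

theorem Dop_sub (A : ι → F →L[ℂ] F) (p : κ → EuclideanSpace ℝ ι → ℝ) (B : κ → F →L[ℂ] F)
    {u v : EuclideanSpace ℝ ι → F} (hu : ContDiff ℝ ∞ u) (hv : ContDiff ℝ ∞ v)
    (x : EuclideanSpace ℝ ι) :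
    Dop A p B (fun y => u y - v y) x = Dop A p B u x - Dop A p B v x := by
  have hd : DifferentiableAt ℝ (fun y => u y - v y) x := (smooth_diff hu x).sub (smooth_diff hv x)
  rw [Dop_fd A p B (smooth_diff hu x), Dop_fd A p B (smooth_diff hv x), Dop_fd A p B hd,
    fderiv_fun_sub (smooth_diff hu x) (smooth_diff hv x)]
  simp only [_root_.sub_apply, map_sub, Finset.sum_sub_distrib, smul_sub]
  abel

/-- Leibniz rule -/
theorem Dop_mul (A : ι → F →L[ℂ] F) (p : κ → EuclideanSpace ℝ ι → ℝ) (B : κ → F →L[ℂ] F)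
    {χ : EuclideanSpace ℝ ι → ℝ} (hχ : ContDiff ℝ ∞ χ)
    {u : EuclideanSpace ℝ ι → F} (hu : ContDiff ℝ ∞ u) (x : EuclideanSpace ℝ ι) :
    Dop A p B (fun y => χ y • u y) x = χ x • Dop A p B u x +
      (-Complex.I) • ∑ k, dr k χ x • A k (u x) := by
  have hχd : DifferentiableAt ℝ χ x := (hχ.differentiable (by simp)).differentiableAt
  have hr : ∀ (r : ℝ) (v : F), r • v = (r : ℂ) • v := fun r v => (Complex.coe_smul r v).symm
  have hd : DifferentiableAt ℝ (fun y => χ y • u y) x := hχd.smul (smooth_diff hu x)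
  rw [Dop_fd A p B (smooth_diff hu x), Dop_fd A p B hd, fderiv_fun_smul hχd (smooth_diff hu x)]
  simp only [_root_.add_apply, _root_.smul_apply, ContinuousLinearMap.smulRight_apply, dr, hr,
    map_add, map_smul, Finset.sum_add_distrib, smul_add, Finset.smul_sum, smul_smul]
  rw [add_right_comm]
  congr 1
  · congr 1
    · refine Finset.sum_congr rfl fun k _ => ?_
      rw [mul_comm]
    · refine Finset.sum_congr rfl fun k _ => ?_
      rw [mul_comm]

theorem inner_deriv {u v : EuclideanSpace ℝ ι → F} (hu : ContDiff ℝ ∞ u) (hv : ContDiff ℝ ∞ v)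
    (x e : EuclideanSpace ℝ ι) : fderiv ℝ (fun y => inner ℂ (u y) (v y)) x e =
      inner ℂ (u x) (fderiv ℝ v x e) + inner ℂ (fderiv ℝ u x e) (v x) :=
  fderiv_inner_apply ℂ (smooth_diff hu x) (smooth_diff hv x) e

/-- the operator is symmetric -/
theorem Dop_symm {A : ι → F →L[ℂ] F} {p : κ → EuclideanSpace ℝ ι → ℝ} {B : κ → F →L[ℂ] F}
    (hA : ∀ k v w, inner ℂ (A k v) w = inner ℂ v (A k w))
    (hB : ∀ m v w, inner ℂ (B m v) w = inner ℂ v (B m w)) (hp : ∀ m, ContDiff ℝ ∞ (p m))
    {φ u : EuclideanSpace ℝ ι → F} (hφ : ContDiff ℝ ∞ φ) (hc : HasCompactSupport φ)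
    (hu : ContDiff ℝ ∞ u) :
    ∫ x, inner ℂ (Dop A p B φ x) (u x) = ∫ x, inner ℂ (φ x) (Dop A p B u x) := by
  have hint : ∀ {f g : EuclideanSpace ℝ ι → F}, Continuous f → HasCompactSupport f →
      Continuous g → Integrable (fun x => (inner ℂ (f x) (g x) : ℂ)) volume := by
    intro f g hf hfc hg
    refine (hf.inner hg).integrable_of_hasCompactSupport (hfc.mono fun x hx => ?_)
    rw [Function.mem_support] at hx ⊢
    intro h0
    exact hx (by rw [h0, inner_zero_left])
  have hI1 := hint (Dop_smooth A B hp hφ).continuous (Dop_supp A p B hφ hc) hu.continuous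
  have hI2 := hint hφ.continuous hc (Dop_smooth A B hp hu).continuous
  rw [← sub_eq_zero, ← integral_sub hI1 hI2]
  have key : ∀ x, (inner ℂ (Dop A p B φ x) (u x) - inner ℂ (φ x) (Dop A p B u x) : ℂ) =
      Complex.I * ∑ k, fderiv ℝ (fun y => (inner ℂ (φ y) (A k (u y)) : ℂ)) x
        (EuclideanSpace.single k 1) := by
    intro x
    rw [Dop_fd A p B (smooth_diff hφ x), Dop_fd A p B (smooth_diff hu x)]
    have h1 : ∀ k, fderiv ℝ (fun y => (inner ℂ (φ y) (A k (u y)) : ℂ)) x
        (EuclideanSpace.single k 1) = inner ℂ (φ x) (A k (fderiv ℝ u x (EuclideanSpace.single k 1)))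
        + inner ℂ (fderiv ℝ φ x (EuclideanSpace.single k 1)) (A k (u x)) := by
      intro k
      rw [inner_deriv hφ (clm_smooth (A k) hu)]
      congr 2
      have h2 : HasFDerivAt (fun y => A k (u y))
          (((A k).restrictScalars ℝ).comp (fderiv ℝ u x)) x :=
        ((A k).restrictScalars ℝ).hasFDerivAt.comp x (smooth_diff hu x).hasFDerivAt
      rw [h2.fderiv]
      rfl
    simp only [h1, inner_add_left, inner_add_right, inner_smul_left, inner_smul_right, sum_inner,
      inner_sum, map_neg, Complex.conj_I, neg_neg, Complex.conj_ofReal, hA, hB,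
      Finset.sum_add_distrib]
    ring
  simp only [key]
  rw [integral_const_mul, integral_finsetSum]
  · refine mul_eq_zero_of_right _ (Finset.sum_eq_zero fun k _ => ?_)
    refine lineDeriv_int_zero (hφ.inner ℂ (clm_smooth (A k) hu)) (hc.mono fun x hx => ?_) _
    rw [Function.mem_support] at hx ⊢
    intro h0
    exact hx (by rw [h0, inner_zero_left])
  · intro k _
    have hs : ContDiff ℝ ∞ (fun y => (inner ℂ (φ y) (A k (u y)) : ℂ)) :=
      hφ.inner ℂ (clm_smooth (A k) hu)
    have hsc : HasCompactSupport (fun y => (inner ℂ (φ y) (A k (u y)) : ℂ)) := by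
      refine hc.mono fun x hx => ?_
      rw [Function.mem_support] at hx ⊢
      intro h0
      exact hx (by rw [h0, inner_zero_left])
    exact ((hs.fderiv_right (m := ∞) (by simp)).clm_apply contDiff_const).continuous.integrable_of_hasCompactSupport
      (hsc.fderiv_apply (𝕜 := ℝ) _)

variable [FiniteDimensional ℂ F]

/-- a smooth weak solution is a classical solution -/
theorem classical {A : ι → F →L[ℂ] F} {p : κ → EuclideanSpace ℝ ι → ℝ} {B : κ → F →L[ℂ] F}
    (hA : ∀ k v w, inner ℂ (A k v) w = inner ℂ v (A k w))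
    (hB : ∀ m v w, inner ℂ (B m v) w = inner ℂ v (B m w)) (hp : ∀ m, ContDiff ℝ ∞ (p m))
    {Φ : EuclideanSpace ℝ ι → F} (hΦ : ContDiff ℝ ∞ Φ)
    (hW : ∀ φ : EuclideanSpace ℝ ι → F, ContDiff ℝ ∞ φ → HasCompactSupport φ →
      ∫ x, inner ℂ (Dop A p B φ x) (Φ x) = 0) (x : EuclideanSpace ℝ ι) : Dop A p B Φ x = 0 := by
  have hcont := (Dop_smooth A B hp hΦ).continuous
  have h1 : ∀ᵐ x ∂(volume : Measure (EuclideanSpace ℝ ι)), Dop A p B Φ x = 0 := by
    refine ae_eq_zero_of_integral_contDiff_smul_eq_zero hcont.locallyIntegrable ?_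
    intro g hg hgc
    refine ext_inner_left ℂ fun w => ?_
    have hint : Integrable (fun x => g x • Dop A p B Φ x) volume :=
      (hg.continuous.smul hcont).integrable_of_hasCompactSupport hgc.smul_right
    rw [inner_zero_right, ← integral_inner hint w]
    have h2 : ContDiff ℝ ∞ (fun x => g x • w) := hg.smul contDiff_const
    have h3 : HasCompactSupport (fun x => g x • w) := hgc.smul_right
    rw [← hW _ h2 h3, Dop_symm hA hB hp h2 h3 hΦ]
    refine integral_congr_ae (Eventually.of_forall fun x => ?_)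
    have hr : ∀ (r : ℝ) (v : F), r • v = (r : ℂ) • v := fun r v => (Complex.coe_smul r v).symm
    simp only [hr, inner_smul_left, inner_smul_right, Complex.conj_ofReal]
  have h4 : Dop A p B Φ = fun _ => 0 :=
    (Continuous.ae_eq_iff_eq volume hcont continuous_const).1 h1
  exact congrFun h4 x

end Boot2

end Vale.Agent.P353.H121
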