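import Vale.Agent.P353.H121.Alg
import Vale.Agent.P353.H121.Boot2

/-! # P353: the gauge action is an isometry (helper121) -/

open MeasureTheory Filter Topology
open scoped ContDiff

namespace Vale.Agent.P353.H121

set_option linter.unusedSectionVars false

open Vale.Agent.P353.BFSS

variable {N d : ℕ} {F : Type*} [NormedAddCommGroup F] [InnerProductSpace ℂ F]
  (M : Model N d F)

theorem S_one : ∀ v, M.S 1 v = v := by
  intro v
  have h1 : M.S 1 (M.S 1 v) = M.S 1 v := by
    rw [← M.S_mul, mul_one]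
  have h2 : ‖M.S 1 v - v‖ = 0 := by
    rw [← M.S_isometry 1 (M.S 1 v - v), map_sub, h1, sub_self, norm_zero]
  exact sub_eq_zero.mp (norm_eq_zero.mp h2)

theorem S_inv (U : SU N) (v : F) : M.S U (M.S U⁻¹ v) = v := by
  rw [← M.S_mul, mul_inv_cancel, S_one]

/-- the adjoint matrices are orthogonal -/
theorem ad_orth (U : SU N) (A A' : Fin d) :
    ∑ B, adCoeff M.T U B A * adCoeff M.T U B A' = if A = A' then 1 else 0 := by
  obtain ⟨v0, hv0⟩ := M.nontrivial
  set v := M.S U v0 with hv
  have hne : v ≠ 0 := by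
    intro h
    apply hv0
    rw [← norm_eq_zero, ← M.S_isometry U, ← hv, h, norm_zero]
  have e1 : ∀ A A', M.S U (M.θ 0 A (M.θ 0 A' v0)) =
      ∑ B, ∑ C, ((adCoeff M.T U B A * adCoeff M.T U C A' : ℝ) : ℂ) • M.θ 0 B (M.θ 0 C v) := by
    intro A A'
    rw [M.S_rotates, M.S_rotates]
    simp only [map_sum, map_smul, Finset.smul_sum, smul_smul, Complex.ofReal_mul]
    rfl
  have h1 : M.S U (M.θ 0 A (M.θ 0 A' v0)) + M.S U (M.θ 0 A' (M.θ 0 A v0)) =
      (((if A = A' then 1 else 0 : ℝ)) : ℂ) • v := by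
    rw [← map_add, M.θ_anticomm]
    by_cases h : A = A'
    · rw [if_pos ⟨rfl, h⟩, if_pos h, Complex.ofReal_one, one_smul, hv]
    · rw [if_neg (fun hh => h hh.2), if_neg h, map_zero, Complex.ofReal_zero, zero_smul]
  have h2 : M.S U (M.θ 0 A (M.θ 0 A' v0)) + M.S U (M.θ 0 A' (M.θ 0 A v0)) =
      ((∑ B, adCoeff M.T U B A * adCoeff M.T U B A' : ℝ) : ℂ) • v := by
    rw [e1, e1 A' A, Finset.sum_comm (f := fun B C =>
      ((adCoeff M.T U B A' * adCoeff M.T U C A : ℝ) : ℂ) • M.θ 0 B (M.θ 0 C v)),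
      ← Finset.sum_add_distrib, Complex.ofReal_sum, Finset.sum_smul]
    refine Finset.sum_congr rfl fun B _ => ?_
    rw [← Finset.sum_add_distrib]
    have : ∀ C, ((adCoeff M.T U B A * adCoeff M.T U C A' : ℝ) : ℂ) • M.θ 0 B (M.θ 0 C v) +
        ((adCoeff M.T U C A' * adCoeff M.T U B A : ℝ) : ℂ) • M.θ 0 C (M.θ 0 B v) =
        if B = C then ((adCoeff M.T U B A * adCoeff M.T U B A' : ℝ) : ℂ) • v else 0 := by
      intro C
      rw [mul_comm (adCoeff M.T U C A'), ← smul_add, M.θ_anticomm]
      by_cases hbc : B = C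
      · subst hbc
        rw [if_pos ⟨rfl, rfl⟩, if_pos rfl]
      · rw [if_neg (fun hh => hbc hh.2), if_neg hbc, smul_zero]
    rw [Finset.sum_congr rfl fun C _ => this C]
    simp
  rw [h1] at h2
  have h3 : (((if A = A' then 1 else 0 : ℝ)) : ℂ) =
      ((∑ B, adCoeff M.T U B A * adCoeff M.T U B A' : ℝ) : ℂ) := by
    have h4 := sub_eq_zero.2 h2
    rw [← sub_smul] at h4
    rcases smul_eq_zero.1 h4 with h5 | h5
    · exact sub_eq_zero.1 h5
    · exact absurd h5 hne
  exact (Complex.ofReal_injective h3).symm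

theorem act_norm (U : SU N) (x : Conf d) : ‖M.act U x‖ = ‖x‖ := by
  have h1 : ‖M.act U x‖ ^ 2 = ‖x‖ ^ 2 := by
    rw [EuclideanSpace.norm_sq_eq, EuclideanSpace.norm_sq_eq, Fintype.sum_prod_type,
      Fintype.sum_prod_type]
    refine Finset.sum_congr rfl fun i _ => ?_
    simp only [Real.norm_eq_abs, sq_abs]
    have e0 : ∀ B, M.act U x (i, B) = ∑ A, adCoeff M.T U B A * x (i, A) := fun B => rfl
    simp only [e0]
    have e1 : ∀ B, (∑ A, adCoeff M.T U B A * x (i, A)) ^ 2 =
        ∑ A, ∑ A', x (i, A) * x (i, A') * (adCoeff M.T U B A * adCoeff M.T U B A') := by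
      intro B
      rw [pow_two, Finset.sum_mul_sum]
      refine Finset.sum_congr rfl fun A _ => Finset.sum_congr rfl fun A' _ => ?_
      ring
    rw [Finset.sum_congr rfl fun B _ => e1 B, Finset.sum_comm]
    refine Finset.sum_congr rfl fun A _ => ?_
    rw [Finset.sum_comm]
    have e2 : ∀ A', ∑ B, x (i, A) * x (i, A') * (adCoeff M.T U B A * adCoeff M.T U B A') =
        if A = A' then x (i, A) * x (i, A') else 0 := by
      intro A'
      rw [← Finset.mul_sum, ad_orth]
      split_ifs <;> simp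
    rw [Finset.sum_congr rfl fun A' _ => e2 A']
    simp [pow_two]
  exact (pow_left_inj₀ (norm_nonneg _) (norm_nonneg _) two_ne_zero).1 h1

/-- the gauge action as a linear map -/
noncomputable def actL (U : SU N) : Conf d →ₗ[ℝ] Conf d where
  toFun := M.act U
  map_add' x y := by
    ext p
    change ∑ A, adCoeff M.T U p.2 A * (x (p.1, A) + y (p.1, A)) =
      ∑ A, adCoeff M.T U p.2 A * x (p.1, A) + ∑ A, adCoeff M.T U p.2 A * y (p.1, A)
    rw [← Finset.sum_add_distrib]
    exact Finset.sum_congr rfl fun A _ => by ring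
  map_smul' c x := by
    ext p
    change ∑ A, adCoeff M.T U p.2 A * (c * x (p.1, A)) =
      c * ∑ A, adCoeff M.T U p.2 A * x (p.1, A)
    rw [Finset.mul_sum]
    exact Finset.sum_congr rfl fun A _ => by ring

/-- the gauge action as a linear isometry -/
noncomputable def actI (U : SU N) : Conf d →ₗᵢ[ℝ] Conf d where
  toLinearMap := actL M U
  norm_map' := act_norm M U

/-- the gauge action as a linear isometric equivalence -/
noncomputable def actE (U : SU N) : Conf d ≃ₗᵢ[ℝ] Conf d :=
  (actI M U).toLinearIsometryEquiv rfl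

theorem actE_apply (U : SU N) (x : Conf d) : actE M U x = M.act U x := rfl

theorem act_mp (U : SU N) : MeasurePreserving (M.act U) (leb d) (leb d) :=
  (actE M U).measurePreserving

theorem act_emb (U : SU N) : MeasurableEmbedding (M.act U) :=
  (actE M U).toHomeomorph.measurableEmbedding

theorem act_cont (U : SU N) : Continuous (M.act U) := (actE M U).continuous

end Vale.Agent.P353.H121
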