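import Vale.Agent.P353.H121.Ell

/-! # Elliptic regularity for Dirac type operators: the bootstrap (helper121) -/

open MeasureTheory Filter Topology FourierTransform
open scoped ContDiff

namespace Vale.Agent.P353.H121

set_option linter.unusedSectionVars false

section Boot

variable {ι κ : Type*} [Fintype ι] [DecidableEq ι] [Fintype κ] {F : Type*} [NormedAddCommGroup F]
  [InnerProductSpace ℂ F]

/-- the Dirac type operator `-i ∑ A_k ∂_k + ∑ p_m(x) B_m` -/
noncomputable def Dop (A : ι → F →L[ℂ] F) (p : κ → EuclideanSpace ℝ ι → ℝ) (B : κ → F →L[ℂ] F)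
    (u : EuclideanSpace ℝ ι → F) (x : EuclideanSpace ℝ ι) : F :=
  (-Complex.I) • ∑ k, A k (lineDeriv ℝ u x (EuclideanSpace.single k 1)) +
    ∑ m, (p m x : ℂ) • B m (u x)

/-- the symbol -/
noncomputable def sig (A : ι → F →L[ℂ] F) (ξ : EuclideanSpace ℝ ι) : F →L[ℂ] F :=
  ∑ k, (ξ k : ℂ) • A k

/-- partial derivative of a real function -/
noncomputable def dr (k : ι) (χ : EuclideanSpace ℝ ι → ℝ) (x : EuclideanSpace ℝ ι) : ℝ :=
  fderiv ℝ χ x (EuclideanSpace.single k 1)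

omit [Fintype κ] in
theorem dr_smooth {k : ι} {χ : EuclideanSpace ℝ ι → ℝ} (h : ContDiff ℝ ∞ χ) :
    ContDiff ℝ ∞ (dr k χ) := by
  unfold dr
  exact (h.fderiv_right (m := ∞) (by simp)).clm_apply contDiff_const

theorem dr_supp {k : ι} {χ : EuclideanSpace ℝ ι → ℝ} (h : HasCompactSupport χ) :
    HasCompactSupport (dr k χ) := h.fderiv_apply (𝕜 := ℝ) _

/-- the plane wave -/
noncomputable def ew (ξ x : EuclideanSpace ℝ ι) : ℂ :=
  Complex.exp (((2 * Real.pi * inner ℝ x ξ : ℝ) : ℂ) * Complex.I)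

theorem ew_smooth (ξ : EuclideanSpace ℝ ι) : ContDiff ℝ ∞ (ew ξ) := by
  unfold ew
  refine ContDiff.cexp (ContDiff.mul (Complex.ofRealCLM.contDiff.comp ?_) contDiff_const)
  exact contDiff_const.mul (contDiff_id.inner ℝ contDiff_const)

theorem ew_fderiv (ξ x v : EuclideanSpace ℝ ι) :
    fderiv ℝ (ew ξ) x v = (2 * Real.pi * inner ℝ v ξ : ℝ) * Complex.I * ew ξ x := by
  have h1 : HasFDerivAt (fun y : EuclideanSpace ℝ ι => (2 * Real.pi * inner ℝ y ξ : ℝ))
      ((2 * Real.pi) • (innerSL ℝ ξ : EuclideanSpace ℝ ι →L[ℝ] ℝ)) x := by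
    have : HasFDerivAt (fun y : EuclideanSpace ℝ ι => (inner ℝ ξ y : ℝ))
      (innerSL ℝ ξ : EuclideanSpace ℝ ι →L[ℝ] ℝ) x := (innerSL ℝ ξ).hasFDerivAt
    have h2 := this.const_mul (2 * Real.pi)
    refine h2.congr_of_eventuallyEq (Eventually.of_forall fun y => ?_)
    simp only [real_inner_comm]
  have h3 := ((Complex.ofRealCLM.hasFDerivAt.comp x h1).mul_const Complex.I).cexp
  have h4 : fderiv ℝ (ew ξ) x = _ := h3.fderiv
  rw [h4]
  simp only [ew, Function.comp, Complex.ofRealCLM_apply, _root_.smul_apply,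
    ContinuousLinearMap.comp_apply, innerSL_apply_apply, smul_eq_mul, real_inner_comm]
  push_cast
  ring

/-- the test function `e^{2πi⟨x,ξ⟩} χ(x) w` -/
noncomputable def tw (ξ : EuclideanSpace ℝ ι) (χ : EuclideanSpace ℝ ι → ℝ) (w : F)
    (x : EuclideanSpace ℝ ι) : F := (ew ξ x * (χ x : ℂ)) • w

theorem tw_smooth (ξ : EuclideanSpace ℝ ι) {χ : EuclideanSpace ℝ ι → ℝ} (h : ContDiff ℝ ∞ χ)
    (w : F) : ContDiff ℝ ∞ (tw ξ χ w) := by
  unfold tw
  exact ((ew_smooth ξ).mul (Complex.ofRealCLM.contDiff.comp h)).smul contDiff_const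

theorem tw_supp (ξ : EuclideanSpace ℝ ι) {χ : EuclideanSpace ℝ ι → ℝ} (h : HasCompactSupport χ)
    (w : F) : HasCompactSupport (tw ξ χ w) := by
  refine h.mono fun x hx => ?_
  rw [Function.mem_support] at hx ⊢
  intro h0
  exact hx (by simp [tw, h0])

theorem tw_deriv (ξ : EuclideanSpace ℝ ι) {χ : EuclideanSpace ℝ ι → ℝ} (h : ContDiff ℝ ∞ χ)
    (w : F) (k : ι) (x : EuclideanSpace ℝ ι) :
    lineDeriv ℝ (tw ξ χ w) x (EuclideanSpace.single k 1) =
      (ew ξ x * ((2 * Real.pi * ξ k * χ x : ℝ) * Complex.I + (dr k χ x : ℝ))) • w := by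
  have hd : DifferentiableAt ℝ (tw ξ χ w) x :=
    ((tw_smooth ξ h w).differentiable (by simp)).differentiableAt
  have h1 : HasFDerivAt (ew ξ) (fderiv ℝ (ew ξ) x) x :=
    (((ew_smooth ξ).differentiable (by simp)).differentiableAt).hasFDerivAt
  have h2 : HasFDerivAt χ (fderiv ℝ χ x) x :=
    ((h.differentiable (by simp)).differentiableAt).hasFDerivAt
  have h3 := (h1.mul (Complex.ofRealCLM.hasFDerivAt.comp x h2)).smul_const w
  rw [hd.lineDeriv_eq_fderiv]
  have h4 : fderiv ℝ (tw ξ χ w) x = _ := h3.fderiv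
  rw [h4]
  simp only [Function.comp, Complex.ofRealCLM_apply, _root_.smul_apply, _root_.add_apply,
    ContinuousLinearMap.comp_apply, smul_eq_mul, ew_fderiv, dr,
    ContinuousLinearMap.smulRight_apply]
  congr 1
  have h5 : inner ℝ (EuclideanSpace.single k (1 : ℝ)) ξ = ξ k := by
    rw [EuclideanSpace.inner_single_left]; simp
  rw [h5]
  push_cast
  ring

/-- value of the operator on the test function -/
theorem Dop_tw (A : ι → F →L[ℂ] F) (p : κ → EuclideanSpace ℝ ι → ℝ) (B : κ → F →L[ℂ] F)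
    (ξ : EuclideanSpace ℝ ι) {χ : EuclideanSpace ℝ ι → ℝ} (h : ContDiff ℝ ∞ χ)
    (w : F) (x : EuclideanSpace ℝ ι) :
    Dop A p B (tw ξ χ w) x = ew ξ x • (((2 * Real.pi * χ x : ℝ) : ℂ) • sig A ξ w -
      Complex.I • ∑ k, (dr k χ x : ℂ) • A k w + ∑ m, ((χ x * p m x : ℝ) : ℂ) • B m w) := by
  unfold Dop sig
  simp only [tw_deriv ξ h, tw, map_smul, smul_add, smul_sub, Finset.smul_sum, smul_smul,
    _root_.sum_apply, _root_.smul_apply, ← Finset.sum_add_distrib, ← Finset.sum_sub_distrib]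
  congr 1
  · refine Finset.sum_congr rfl fun k _ => ?_
    rw [← sub_smul]
    congr 1
    push_cast
    linear_combination (-(ew ξ x) * (2 * Real.pi * ξ k * χ x)) * Complex.I_sq
  · refine Finset.sum_congr rfl fun m _ => ?_
    congr 1
    push_cast
    ring

/-- cut off solution -/
theorem cut_int {Ψ : EuclideanSpace ℝ ι → F} (hΨ : LocallyIntegrable Ψ volume)
    {χ : EuclideanSpace ℝ ι → ℝ} (h : Continuous χ) (hc : HasCompactSupport χ) :
    Integrable (fun x => χ x • Ψ x) volume :=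
  hΨ.integrable_smul_left_of_hasCompactSupport h hc

variable [FiniteDimensional ℂ F]

/-- the integrand whose Fourier transform vanishes -/
noncomputable def GG (A : ι → F →L[ℂ] F) (p : κ → EuclideanSpace ℝ ι → ℝ) (B : κ → F →L[ℂ] F)
    (Ψ : EuclideanSpace ℝ ι → F) (ξ : EuclideanSpace ℝ ι) (χ : EuclideanSpace ℝ ι → ℝ)
    (x : EuclideanSpace ℝ ι) : F :=
  ((2 * Real.pi : ℝ) : ℂ) • sig A ξ (χ x • Ψ x) + Complex.I • ∑ k, A k (dr k χ x • Ψ x) +
    ∑ m, B m ((χ x * p m x) • Ψ x)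

theorem sig_symm {A : ι → F →L[ℂ] F} (hA : ∀ k v w, inner ℂ (A k v) w = inner ℂ v (A k w))
    (ξ : EuclideanSpace ℝ ι) (v w : F) : inner ℂ (sig A ξ v) w = inner ℂ v (sig A ξ w) := by
  simp only [sig, _root_.sum_apply, _root_.smul_apply, sum_inner, inner_sum, inner_smul_left,
    inner_smul_right, hA, Complex.conj_ofReal]

theorem inner_Dop_tw {A : ι → F →L[ℂ] F} {p : κ → EuclideanSpace ℝ ι → ℝ} {B : κ → F →L[ℂ] F}
    (hA : ∀ k v w, inner ℂ (A k v) w = inner ℂ v (A k w))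
    (hB : ∀ m v w, inner ℂ (B m v) w = inner ℂ v (B m w))
    (ξ : EuclideanSpace ℝ ι) {χ : EuclideanSpace ℝ ι → ℝ} (h : ContDiff ℝ ∞ χ)
    (Ψ : EuclideanSpace ℝ ι → F) (w : F) (x : EuclideanSpace ℝ ι) :
    inner ℂ (Dop A p B (tw ξ χ w) x) (Ψ x) =
      inner ℂ w ((starRingEnd ℂ) (ew ξ x) • GG A p B Ψ ξ χ x) := by
  have hr : ∀ (r : ℝ) (v : F), r • v = (r : ℂ) • v := fun r v => (Complex.coe_smul r v).symm
  rw [Dop_tw A p B ξ h w x, GG]
  simp only [hr, map_smul, inner_smul_left, inner_smul_right, inner_add_left, inner_sub_left,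
    inner_add_right, sum_inner, inner_sum, sig_symm hA, hA, hB, Complex.conj_ofReal,
    Complex.conj_I]
  push_cast
  ring

theorem GG_int {A : ι → F →L[ℂ] F} {p : κ → EuclideanSpace ℝ ι → ℝ} {B : κ → F →L[ℂ] F}
    (hp : ∀ m, ContDiff ℝ ∞ (p m)) {Ψ : EuclideanSpace ℝ ι → F}
    (hΨ : LocallyIntegrable Ψ volume) (ξ : EuclideanSpace ℝ ι) {χ : EuclideanSpace ℝ ι → ℝ}
    (h : ContDiff ℝ ∞ χ) (hc : HasCompactSupport χ) : Integrable (GG A p B Ψ ξ χ) volume := by
  unfold GG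
  refine (Integrable.add ?_ ?_).add ?_
  · exact ((sig A ξ).integrable_comp (cut_int hΨ h.continuous hc)).smul _
  · refine Integrable.smul _ (integrable_finsetSum _ fun k _ => ?_)
    exact (A k).integrable_comp (cut_int hΨ (dr_smooth h).continuous (dr_supp hc))
  · refine integrable_finsetSum _ fun m _ => ?_
    exact (B m).integrable_comp (cut_int hΨ (h.mul (hp m)).continuous hc.mul_right)

theorem ew_conj (ξ x : EuclideanSpace ℝ ι) : (starRingEnd ℂ) (ew ξ x) =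
    Complex.exp (((-2 * Real.pi * inner ℝ x ξ : ℝ) : ℂ) * Complex.I) := by
  unfold ew
  rw [← Complex.exp_conj, map_mul, Complex.conj_ofReal, Complex.conj_I]
  congr 1
  push_cast
  ring

/-- the equation on the Fourier side -/
theorem fourier_eqn {A : ι → F →L[ℂ] F} {p : κ → EuclideanSpace ℝ ι → ℝ} {B : κ → F →L[ℂ] F}
    (hA : ∀ k v w, inner ℂ (A k v) w = inner ℂ v (A k w))
    (hB : ∀ m v w, inner ℂ (B m v) w = inner ℂ v (B m w)) (hp : ∀ m, ContDiff ℝ ∞ (p m))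
    {Ψ : EuclideanSpace ℝ ι → F} (hΨ : LocallyIntegrable Ψ volume)
    (hW : ∀ φ : EuclideanSpace ℝ ι → F, ContDiff ℝ ∞ φ → HasCompactSupport φ →
      ∫ x, inner ℂ (Dop A p B φ x) (Ψ x) = 0)
    {χ : EuclideanSpace ℝ ι → ℝ} (h : ContDiff ℝ ∞ χ) (hc : HasCompactSupport χ)
    (ξ : EuclideanSpace ℝ ι) :
    ((2 * Real.pi : ℝ) : ℂ) • sig A ξ (𝓕 (fun x => χ x • Ψ x) ξ) +
      Complex.I • ∑ k, A k (𝓕 (fun x => dr k χ x • Ψ x) ξ) +
      ∑ m, B m (𝓕 (fun x => (χ x * p m x) • Ψ x) ξ) = 0 := by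
  have hG := GG_int (A := A) (B := B) hp hΨ ξ h hc
  have hei : ∀ {g : EuclideanSpace ℝ ι → F}, Integrable g volume →
      Integrable (fun x => (starRingEnd ℂ) (ew ξ x) • g x) volume := by
    intro g hg
    have hm : AEStronglyMeasurable (fun x => (starRingEnd ℂ) (ew ξ x)) volume :=
      (Complex.continuous_conj.comp (ew_smooth ξ).continuous).aestronglyMeasurable
    refine hg.mono (hm.smul hg.aestronglyMeasurable) (Eventually.of_forall fun x => ?_)
    rw [norm_smul, ew_conj, Complex.norm_exp_ofReal_mul_I, one_mul]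
  have hF : ∀ g : EuclideanSpace ℝ ι → F, 𝓕 g ξ = ∫ x, (starRingEnd ℂ) (ew ξ x) • g x := by
    intro g
    rw [Real.fourier_eq']
    refine integral_congr_ae (Eventually.of_forall fun x => ?_)
    simp only [ew_conj]
  have h1 : ∫ x, (starRingEnd ℂ) (ew ξ x) • GG A p B Ψ ξ χ x = 0 := by
    refine ext_inner_left ℂ fun w => ?_
    rw [inner_zero_right, ← integral_inner (hei hG) w, ← hW (tw ξ χ w) (tw_smooth ξ h w) (tw_supp ξ hc w)]
    refine integral_congr_ae (Eventually.of_forall fun x => ?_)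
    exact (inner_Dop_tw hA hB ξ h Ψ w x).symm
  rw [← h1]
  simp only [hF]
  have i1 := hei (cut_int hΨ h.continuous hc)
  have i2 := fun k => hei (cut_int hΨ (dr_smooth (k := k) h).continuous (dr_supp hc))
  have i3 := fun m => hei (cut_int hΨ (h.mul (hp m)).continuous hc.mul_right)
  have e1 : sig A ξ (∫ x, (starRingEnd ℂ) (ew ξ x) • χ x • Ψ x) =
      ∫ x, sig A ξ ((starRingEnd ℂ) (ew ξ x) • χ x • Ψ x) :=
    ((sig A ξ).integral_comp_comm i1).symm
  have e2 : ∀ k, A k (∫ x, (starRingEnd ℂ) (ew ξ x) • dr k χ x • Ψ x) =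
      ∫ x, A k ((starRingEnd ℂ) (ew ξ x) • dr k χ x • Ψ x) := fun k =>
    ((A k).integral_comp_comm (i2 k)).symm
  have e3 : ∀ m, B m (∫ x, (starRingEnd ℂ) (ew ξ x) • (χ x * p m x) • Ψ x) =
      ∫ x, B m ((starRingEnd ℂ) (ew ξ x) • (χ x * p m x) • Ψ x) := fun m =>
    ((B m).integral_comp_comm (i3 m)).symm
  have j1 := (sig A ξ).integrable_comp i1
  have j2 := fun k => (A k).integrable_comp (i2 k)
  have j3 := fun m => (B m).integrable_comp (i3 m)
  have k1 : Integrable (fun x => ((2 * Real.pi : ℝ) : ℂ) •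
      sig A ξ ((starRingEnd ℂ) (ew ξ x) • χ x • Ψ x)) volume := j1.smul _
  have k2 : Integrable (fun x => Complex.I • ∑ k, A k ((starRingEnd ℂ) (ew ξ x) • dr k χ x • Ψ x))
      volume := (integrable_finsetSum _ fun k _ => j2 k).smul _
  have k3 : Integrable (fun x => ∑ m, B m ((starRingEnd ℂ) (ew ξ x) • (χ x * p m x) • Ψ x))
      volume := integrable_finsetSum _ fun m _ => j3 m
  have k12 : Integrable (fun x => ((2 * Real.pi : ℝ) : ℂ) •
      sig A ξ ((starRingEnd ℂ) (ew ξ x) • χ x • Ψ x) +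
      Complex.I • ∑ k, A k ((starRingEnd ℂ) (ew ξ x) • dr k χ x • Ψ x)) volume := k1.add k2
  rw [e1, Finset.sum_congr rfl fun k _ => e2 k, Finset.sum_congr rfl fun m _ => e3 m,
    ← integral_smul, ← integral_finsetSum _ fun k _ => j2 k, ← integral_smul,
    ← integral_finsetSum _ fun m _ => j3 m, ← integral_add k1 k2, ← integral_add k12 k3]
  refine integral_congr_ae (Eventually.of_forall fun x => ?_)
  simp only [GG, map_smul, smul_add, Finset.smul_sum, smul_smul]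
  congr 1
  congr 1
  · rw [mul_comm]
  · refine Finset.sum_congr rfl fun k _ => ?_
    rw [mul_comm]

/-- **Elliptic regularity**: a locally integrable weak solution of a Dirac type equation with
smooth coefficients is smooth. -/
theorem ell_reg {A : ι → F →L[ℂ] F} {p : κ → EuclideanSpace ℝ ι → ℝ} {B : κ → F →L[ℂ] F}
    (hA : ∀ k v w, inner ℂ (A k v) w = inner ℂ v (A k w))
    (hB : ∀ m v w, inner ℂ (B m v) w = inner ℂ v (B m w)) (hp : ∀ m, ContDiff ℝ ∞ (p m))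
    {K : ℝ} (hK : 0 ≤ K) (hE : ∀ ξ v, ‖ξ‖ * ‖v‖ ≤ K * ‖sig A ξ v‖)
    {Ψ : EuclideanSpace ℝ ι → F} (hΨ : LocallyIntegrable Ψ volume)
    (hW : ∀ φ : EuclideanSpace ℝ ι → F, ContDiff ℝ ∞ φ → HasCompactSupport φ →
      ∫ x, inner ℂ (Dop A p B φ x) (Ψ x) = 0) :
    ∃ Φ : EuclideanSpace ℝ ι → F, ContDiff ℝ ∞ Φ ∧ Ψ =ᵐ[volume] Φ := by
  have hFc : CompleteSpace F := FiniteDimensional.complete ℂ F
  have key : ∀ n : ℕ, ∀ χ : EuclideanSpace ℝ ι → ℝ, ContDiff ℝ ∞ χ → HasCompactSupport χ →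
      ∃ C, ∀ ξ, ‖ξ‖ ^ n * ‖𝓕 (fun x => χ x • Ψ x) ξ‖ ≤ C := by
    intro n
    induction n with
    | zero =>
      intro χ h hc
      refine ⟨∫ x, ‖χ x • Ψ x‖, fun ξ => ?_⟩
      rw [pow_zero, one_mul]
      exact VectorFourier.norm_fourierIntegral_le_integral_norm _ _ _ _ _
    | succ n ih =>
      intro χ h hc
      choose C1 hC1 using fun k => ih (dr k χ) (dr_smooth h) (dr_supp hc)
      choose C2 hC2 using fun m => ih (fun x => χ x * p m x) (h.mul (hp m)) hc.mul_right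
      refine ⟨K * (∑ k, ‖A k‖ * C1 k + ∑ m, ‖B m‖ * C2 m), fun ξ => ?_⟩
      have h1 := fourier_eqn hA hB hp hΨ hW h hc ξ
      set a := 𝓕 (fun x => χ x • Ψ x) ξ with ha
      set b := fun k => 𝓕 (fun x => dr k χ x • Ψ x) ξ with hb
      set c := fun m => 𝓕 (fun x => (χ x * p m x) • Ψ x) ξ with hc'
      have h2 : ((2 * Real.pi : ℝ) : ℂ) • sig A ξ a =
          -(Complex.I • ∑ k, A k (b k) + ∑ m, B m (c m)) := by
        rw [add_assoc] at h1
        exact eq_neg_of_add_eq_zero_left h1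
      have h3 : ‖sig A ξ a‖ ≤ ∑ k, ‖A k‖ * ‖b k‖ + ∑ m, ‖B m‖ * ‖c m‖ := by
        have h4 : ‖sig A ξ a‖ ≤ ‖((2 * Real.pi : ℝ) : ℂ) • sig A ξ a‖ := by
          rw [norm_smul, Complex.norm_real, Real.norm_of_nonneg (by positivity)]
          have : (1 : ℝ) ≤ 2 * Real.pi := by linarith [Real.pi_gt_three]
          exact le_mul_of_one_le_left (norm_nonneg _) this
        refine h4.trans ?_
        rw [h2, norm_neg]
        refine (norm_add_le _ _).trans (add_le_add ?_ ?_)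
        · rw [norm_smul, Complex.norm_I, one_mul]
          exact (norm_sum_le _ _).trans (Finset.sum_le_sum fun k _ => (A k).le_opNorm _)
        · exact (norm_sum_le _ _).trans (Finset.sum_le_sum fun m _ => (B m).le_opNorm _)
      calc ‖ξ‖ ^ (n + 1) * ‖a‖ = ‖ξ‖ ^ n * (‖ξ‖ * ‖a‖) := by ring
        _ ≤ ‖ξ‖ ^ n * (K * ‖sig A ξ a‖) :=
          mul_le_mul_of_nonneg_left (hE ξ a) (by positivity)
        _ ≤ ‖ξ‖ ^ n * (K * (∑ k, ‖A k‖ * ‖b k‖ + ∑ m, ‖B m‖ * ‖c m‖)) := by gcongr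
        _ = K * (∑ k, ‖A k‖ * (‖ξ‖ ^ n * ‖b k‖) + ∑ m, ‖B m‖ * (‖ξ‖ ^ n * ‖c m‖)) := by
          have e1 : ∑ k, ‖A k‖ * (‖ξ‖ ^ n * ‖b k‖) = ‖ξ‖ ^ n * ∑ k, ‖A k‖ * ‖b k‖ := by
            rw [Finset.mul_sum]; exact Finset.sum_congr rfl fun k _ => by ring
          have e2 : ∑ m, ‖B m‖ * (‖ξ‖ ^ n * ‖c m‖) = ‖ξ‖ ^ n * ∑ m, ‖B m‖ * ‖c m‖ := by
            rw [Finset.mul_sum]; exact Finset.sum_congr rfl fun k _ => by ring
          rw [e1, e2]
          ring
        _ ≤ K * (∑ k, ‖A k‖ * C1 k + ∑ m, ‖B m‖ * C2 m) := by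
          gcongr with k _ m _
          · exact hC1 k ξ
          · exact hC2 m ξ
  exact smooth_of_local fun χ h hc =>
    smooth_of_decay (cut_int hΨ h.continuous hc) fun n => key n χ h hc

end Boot

end Vale.Agent.P353.H121
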