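import Vale.Agent.P353.BFSS
import Vale.Agent.P353.H121.Boot

/-! # P353: the supercharges are elliptic operators of Dirac type (helper121) -/

open MeasureTheory Filter Topology
open scoped ContDiff

namespace Vale.Agent.P353.H121

set_option linter.unusedSectionVars false

open Vale.Agent.P353.BFSS

variable {N d : ℕ} {F : Type*} [NormedAddCommGroup F] [InnerProductSpace ℂ F]
  (M : Model N d F)

/-! ### the Clifford module is finite dimensional -/

/-- the span of the products of a list of generators applied to `v` -/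
noncomputable def gen (v : F) : List (Fin 16 × Fin d) → Submodule ℂ F
  | [] => Submodule.span ℂ {v}
  | a :: l => gen v l ⊔ (gen v l).map (M.θ a.1 a.2 : F →ₗ[ℂ] F)

theorem gen_fd (v : F) (l : List (Fin 16 × Fin d)) : FiniteDimensional ℂ (gen M v l) := by
  induction l with
  | nil => exact FiniteDimensional.span_singleton ℂ v
  | cons a l ih =>
    rw [gen]
    infer_instance

theorem mem_gen (v : F) (l : List (Fin 16 × Fin d)) : v ∈ gen M v l := by
  induction l with
  | nil => exact Submodule.mem_span_singleton_self v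
  | cons a l ih => exact Submodule.mem_sup_left ih

theorem th_sq (α : Fin 16) (A : Fin d) (w : F) :
    M.θ α A (M.θ α A w) = (1 / 2 : ℂ) • w := by
  have h := M.θ_anticomm α A α A w
  rw [if_pos ⟨rfl, rfl⟩] at h
  conv_rhs => rw [← h]
  rw [smul_add, ← add_smul]
  norm_num

theorem gen_inv (v : F) (l : List (Fin 16 × Fin d)) :
    ∀ b ∈ l, ∀ w ∈ gen M v l, M.θ b.1 b.2 w ∈ gen M v l := by
  induction l with
  | nil => intro b hb; simp at hb
  | cons a l ih =>
    intro b hb w hw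
    rw [gen, Submodule.mem_sup] at hw
    obtain ⟨w1, hw1, w2', hw2', rfl⟩ := hw
    obtain ⟨w2, hw2, rfl⟩ := Submodule.mem_map.mp hw2'
    rw [map_add]
    rw [gen]
    change M.θ b.1 b.2 w1 + M.θ b.1 b.2 (M.θ a.1 a.2 w2) ∈ _
    by_cases hba : b = a
    · subst hba
      rw [th_sq]
      refine Submodule.add_mem _ ?_ ?_
      · exact Submodule.mem_sup_right (Submodule.mem_map.mpr ⟨w1, hw1, rfl⟩)
      · exact Submodule.mem_sup_left (Submodule.smul_mem _ _ hw2)
    · have hbl : b ∈ l := by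
        rcases List.mem_cons.mp hb with h | h
        · exact absurd h hba
        · exact h
      have h := M.θ_anticomm b.1 b.2 a.1 a.2 w2
      have hne : ¬ (b.1 = a.1 ∧ b.2 = a.2) := fun hh => hba (Prod.ext hh.1 hh.2)
      rw [if_neg hne] at h
      have h2 : M.θ b.1 b.2 (M.θ a.1 a.2 w2) = -(M.θ a.1 a.2 (M.θ b.1 b.2 w2)) :=
        eq_neg_of_add_eq_zero_left h
      rw [h2]
      refine Submodule.add_mem _ ?_ (Submodule.neg_mem _ ?_)
      · exact Submodule.mem_sup_left (ih b hbl w1 hw1)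
      · exact Submodule.mem_sup_right (Submodule.mem_map.mpr ⟨_, ih b hbl w2 hw2, rfl⟩)

include M in
/-- the Clifford module of a model is finite dimensional. -/
theorem fdim : FiniteDimensional ℂ F := by
  obtain ⟨v, hv⟩ := M.nontrivial
  set l := (Finset.univ : Finset (Fin 16 × Fin d)).toList with hl
  have hinv : ∀ α A, ∀ w ∈ gen M v l, M.θ α A w ∈ gen M v l := by
    intro α A w hw
    exact gen_inv M v l (α, A) (by rw [hl, Finset.mem_toList]; exact Finset.mem_univ _) w hw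
  rcases M.θ_irreducible _ hinv with h | h
  · exfalso
    have := mem_gen M v l
    rw [h, Submodule.mem_bot] at this
    exact hv this
  · have h1 := gen_fd M v l
    rw [h] at h1
    exact Module.finite_def.mpr ((Submodule.fg_iff_finiteDimensional _).mpr h1)

/-! ### the supercharges as Dirac type operators -/

/-- coefficient of `∂_i^A` in `i Q_α` -/
noncomputable def cA (α : Fin 16) (k : Idx d) : F →L[ℂ] F :=
  ∑ β, (M.γ k.1 α β : ℂ) • M.θ β k.2

/-- indices of the terms of the potential part -/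
abbrev KK (d : ℕ) : Type := Fin d × Fin d × Fin d × Fin 9 × Fin 9 × Fin 16

/-- monomials -/
noncomputable def cp (m : KK d) (x : Conf d) : ℝ :=
  x (m.2.2.2.1, m.2.1) * x (m.2.2.2.2.1, m.2.2.1)

/-- coefficients of the potential part -/
noncomputable def cB (α : Fin 16) (m : KK d) : F →L[ℂ] F :=
  (((1 / 2 * (M.f m.1 m.2.1 m.2.2.1 * M.γ2 m.2.2.2.1 m.2.2.2.2.1 α m.2.2.2.2.2) : ℝ) : ℂ)) •
    M.θ m.2.2.2.2.2 m.1

theorem Q_eq (α : Fin 16) (u : Conf d → F) (x : Conf d) :
    M.Q α u x = Dop (cA M α) (cp (d := d)) (cB M α) u x := by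
  unfold Model.Q Dop
  congr 1
  · congr 1
    rw [Fintype.sum_prod_type]
    refine Finset.sum_congr rfl fun i _ => ?_
    rw [Finset.sum_comm]
    refine Finset.sum_congr rfl fun A _ => ?_
    simp only [cA, _root_.sum_apply, _root_.smul_apply, pd]
  · simp only [Fintype.sum_prod_type, Finset.smul_sum, cp, cB, _root_.smul_apply, smul_smul]
    refine Finset.sum_congr rfl fun A _ => Finset.sum_congr rfl fun B _ =>
      Finset.sum_congr rfl fun C _ => Finset.sum_congr rfl fun i _ =>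
      Finset.sum_congr rfl fun j _ => Finset.sum_congr rfl fun β _ => ?_
    congr 1
    push_cast
    ring

theorem cA_symm (α : Fin 16) (k : Idx d) (v w : F) :
    inner ℂ (cA M α k v) w = inner ℂ v (cA M α k w) := by
  simp only [cA, _root_.sum_apply, _root_.smul_apply, sum_inner, inner_sum, inner_smul_left,
    inner_smul_right, M.θ_selfAdjoint, Complex.conj_ofReal]

theorem cB_symm (α : Fin 16) (m : KK d) (v w : F) :
    inner ℂ (cB M α m v) w = inner ℂ v (cB M α m w) := by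
  simp only [cB, _root_.smul_apply, inner_smul_left, inner_smul_right, M.θ_selfAdjoint,
    Complex.conj_ofReal]

theorem cp_smooth (m : KK d) : ContDiff ℝ ∞ (cp (d := d) m) := by
  unfold cp
  exact (contDiff_euclidean.1 contDiff_id _).mul (contDiff_euclidean.1 contDiff_id _)

/-- square of a real combination of the generators -/
theorem cliff_sq (c : Fin 16 → Fin d → ℝ) (v : F) :
    (∑ β, ∑ A, (c β A : ℂ) • M.θ β A) ((∑ β, ∑ A, (c β A : ℂ) • M.θ β A) v) =
      ((1 / 2 * ∑ β, ∑ A, c β A ^ 2 : ℝ) : ℂ) • v := by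
  have h1 : ∀ (g : Fin 16 × Fin d → ℝ) (v : F),
      (∑ a, (g a : ℂ) • M.θ a.1 a.2) ((∑ b, (g b : ℂ) • M.θ b.1 b.2) v) =
      ((1 / 2 * ∑ a, g a ^ 2 : ℝ) : ℂ) • v := by
    intro g v
    have e1 : (∑ a, (g a : ℂ) • M.θ a.1 a.2) ((∑ b, (g b : ℂ) • M.θ b.1 b.2) v) =
        ∑ a, ∑ b, ((g a * g b : ℝ) : ℂ) • M.θ a.1 a.2 (M.θ b.1 b.2 v) := by
      simp only [_root_.sum_apply, _root_.smul_apply, map_sum, map_smul, Finset.smul_sum,
        smul_smul, Complex.ofReal_mul]
      rw [Finset.sum_comm]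
      refine Finset.sum_congr rfl fun a _ => Finset.sum_congr rfl fun b _ => ?_
      rw [mul_comm]
    have e2 : ∑ a, ∑ b, ((g a * g b : ℝ) : ℂ) • M.θ a.1 a.2 (M.θ b.1 b.2 v) =
        ∑ a, ∑ b, ((g a * g b : ℝ) : ℂ) • M.θ b.1 b.2 (M.θ a.1 a.2 v) := by
      rw [Finset.sum_comm]
      refine Finset.sum_congr rfl fun a _ => Finset.sum_congr rfl fun b _ => ?_
      rw [mul_comm]
    have e3 : (2 : ℂ) • ∑ a, ∑ b, ((g a * g b : ℝ) : ℂ) • M.θ a.1 a.2 (M.θ b.1 b.2 v) =
        ∑ a, ((g a ^ 2 : ℝ) : ℂ) • v := by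
      rw [two_smul]
      nth_rewrite 2 [e2]
      rw [← Finset.sum_add_distrib]
      refine Finset.sum_congr rfl fun a _ => ?_
      rw [← Finset.sum_add_distrib]
      have : ∀ b : Fin 16 × Fin d, ((g a * g b : ℝ) : ℂ) • M.θ a.1 a.2 (M.θ b.1 b.2 v) +
          ((g a * g b : ℝ) : ℂ) • M.θ b.1 b.2 (M.θ a.1 a.2 v) =
          if a = b then ((g a ^ 2 : ℝ) : ℂ) • v else 0 := by
        intro b
        rw [← smul_add, M.θ_anticomm]
        by_cases hab : a = b
        · subst hab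
          rw [if_pos ⟨rfl, rfl⟩, if_pos rfl, pow_two]
        · rw [if_neg (fun h => hab (Prod.ext h.1 h.2)), if_neg hab, smul_zero]
      rw [Finset.sum_congr rfl fun b _ => this b]
      simp
    rw [e1]
    have e4 : ∑ a, ∑ b, ((g a * g b : ℝ) : ℂ) • M.θ a.1 a.2 (M.θ b.1 b.2 v) =
        (1 / 2 : ℂ) • ∑ a, ((g a ^ 2 : ℝ) : ℂ) • v := by
      rw [← e3, smul_smul]
      norm_num
    rw [e4, ← Finset.sum_smul, smul_smul]
    push_cast
    rfl
  have h2 := h1 (fun a => c a.1 a.2) v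
  simp only [Fintype.sum_prod_type] at h2
  exact h2

theorem gamma_norm (α : Fin 16) (y : Fin 9 → ℝ) :
    ∑ β, (∑ i, y i * M.γ i α β) ^ 2 = ∑ i, y i ^ 2 := by
  have h1 : ∀ i j : Fin 9, ∑ β, (M.γ i α β * M.γ j α β + M.γ j α β * M.γ i α β) =
      if i = j then 2 else 0 := by
    intro i j
    have h2 := congrFun (congrFun (M.γ_anticomm i j) α) α
    rw [Matrix.add_apply, Matrix.mul_apply, Matrix.mul_apply] at h2
    have hs : ∀ (i : Fin 9) (a b : Fin 16), M.γ i a b = M.γ i b a := fun i a b => by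
      have := congrFun (congrFun (M.γ_symm i) a) b
      rw [Matrix.transpose_apply] at this
      exact this.symm
    rw [Finset.sum_add_distrib]
    have e1 : ∑ β, M.γ i α β * M.γ j α β = ∑ β, M.γ i α β * M.γ j β α :=
      Finset.sum_congr rfl fun β _ => by rw [hs j α β]
    have e2 : ∑ β, M.γ j α β * M.γ i α β = ∑ β, M.γ j α β * M.γ i β α :=
      Finset.sum_congr rfl fun β _ => by rw [hs i α β]
    rw [e1, e2, h2]
    by_cases hij : i = j
    · rw [if_pos hij, if_pos hij]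
      rw [show (2 : Matrix (Fin 16) (Fin 16) ℝ) = 1 + 1 by norm_num, Matrix.add_apply,
        Matrix.one_apply_eq]
      norm_num
    · rw [if_neg hij, if_neg hij, Matrix.zero_apply]
  have h3 : ∑ β, (∑ i, y i * M.γ i α β) ^ 2 =
      ∑ i, ∑ j, y i * y j * ∑ β, M.γ i α β * M.γ j α β := by
    have e0 : ∀ β, (∑ i, y i * M.γ i α β) ^ 2 =
        ∑ i, ∑ j, y i * y j * (M.γ i α β * M.γ j α β) := by
      intro β
      rw [pow_two, Finset.sum_mul_sum]
      refine Finset.sum_congr rfl fun i _ => Finset.sum_congr rfl fun j _ => ?_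
      ring
    rw [Finset.sum_congr rfl fun β _ => e0 β, Finset.sum_comm]
    refine Finset.sum_congr rfl fun i _ => ?_
    rw [Finset.sum_comm]
    refine Finset.sum_congr rfl fun j _ => ?_
    rw [Finset.mul_sum]
  have h4 : ∑ i, ∑ j, y i * y j * ∑ β, M.γ i α β * M.γ j α β =
      1 / 2 * ∑ i, ∑ j, y i * y j *
        ∑ β, (M.γ i α β * M.γ j α β + M.γ j α β * M.γ i α β) := by
    rw [Finset.mul_sum]
    refine Finset.sum_congr rfl fun i _ => ?_
    rw [Finset.mul_sum]
    refine Finset.sum_congr rfl fun j _ => ?_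
    rw [Finset.sum_add_distrib]
    have : ∑ β, M.γ j α β * M.γ i α β = ∑ β, M.γ i α β * M.γ j α β :=
      Finset.sum_congr rfl fun β _ => mul_comm _ _
    rw [this]
    ring
  rw [h3, h4]
  simp only [h1]
  rw [Finset.mul_sum]
  refine Finset.sum_congr rfl fun i _ => ?_
  simp
  ring

/-- ellipticity of every single supercharge -/
theorem elliptic (α : Fin 16) (ξ : Conf d) (v : F) :
    ‖ξ‖ * ‖v‖ ≤ Real.sqrt 2 * ‖sig (cA M α) ξ v‖ := by
  have hF : FiniteDimensional ℂ F := fdim M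
  set c : Fin 16 → Fin d → ℝ := fun β A => ∑ i, ξ (i, A) * M.γ i α β with hc
  have h1 : sig (cA M α) ξ = ∑ β, ∑ A, (c β A : ℂ) • M.θ β A := by
    simp only [sig, cA, Fintype.sum_prod_type, Finset.smul_sum, smul_smul, hc,
      Complex.ofReal_sum, Finset.sum_smul, Complex.ofReal_mul]
    have g1 : ∑ i : Fin 9, ∑ A : Fin d, ∑ β : Fin 16,
        ((ξ (i, A) : ℂ) * (M.γ i α β : ℂ)) • M.θ β A =
        ∑ A : Fin d, ∑ i : Fin 9, ∑ β : Fin 16,
        ((ξ (i, A) : ℂ) * (M.γ i α β : ℂ)) • M.θ β A := Finset.sum_comm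
    have g2 : ∑ A : Fin d, ∑ i : Fin 9, ∑ β : Fin 16,
        ((ξ (i, A) : ℂ) * (M.γ i α β : ℂ)) • M.θ β A =
        ∑ A : Fin d, ∑ β : Fin 16, ∑ i : Fin 9,
        ((ξ (i, A) : ℂ) * (M.γ i α β : ℂ)) • M.θ β A :=
        Finset.sum_congr rfl fun A _ => Finset.sum_comm
    rw [g1, g2]
    exact Finset.sum_comm
  have h2 : ∑ β, ∑ A, c β A ^ 2 = ‖ξ‖ ^ 2 := by
    have g1 : ∑ β : Fin 16, ∑ A : Fin d, c β A ^ 2 = ∑ A : Fin d, ∑ β : Fin 16, c β A ^ 2 :=
      Finset.sum_comm
    have g2 : ∀ A : Fin d, ∑ β : Fin 16, c β A ^ 2 = ∑ i : Fin 9, ξ (i, A) ^ 2 := fun A => by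
      simp only [hc, gamma_norm]
    have g3 : ∑ A : Fin d, ∑ i : Fin 9, ξ (i, A) ^ 2 = ∑ i : Fin 9, ∑ A : Fin d, ξ (i, A) ^ 2 :=
      Finset.sum_comm
    rw [g1, Finset.sum_congr rfl fun A _ => g2 A, g3, EuclideanSpace.norm_sq_eq,
      Fintype.sum_prod_type]
    simp only [Real.norm_eq_abs, sq_abs]
  have h3 : ‖sig (cA M α) ξ v‖ ^ 2 = 1 / 2 * (‖ξ‖ * ‖v‖) ^ 2 := by
    have h4 : (inner ℂ (sig (cA M α) ξ v) (sig (cA M α) ξ v) : ℂ) =
        inner ℂ v (sig (cA M α) ξ (sig (cA M α) ξ v)) := sig_symm (cA_symm M α) ξ _ _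
    rw [h1, cliff_sq, ← h1, h2, inner_smul_right, inner_self_eq_norm_sq_to_K,
      inner_self_eq_norm_sq_to_K] at h4
    have h6 : ((‖sig (cA M α) ξ v‖ ^ 2 : ℝ) : ℂ) = ((1 / 2 * ‖ξ‖ ^ 2 * ‖v‖ ^ 2 : ℝ) : ℂ) := by
      rw [Complex.ofReal_pow, Complex.ofReal_mul, Complex.ofReal_pow]
      exact h4
    have h7 := Complex.ofReal_injective h6
    rw [h7]
    ring
  have h5 : (‖ξ‖ * ‖v‖) ^ 2 ≤ (Real.sqrt 2 * ‖sig (cA M α) ξ v‖) ^ 2 := by
    rw [mul_pow (Real.sqrt 2), Real.sq_sqrt (by norm_num), h3]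
    linarith
  exact (pow_le_pow_iff_left₀ (by positivity) (by positivity) two_ne_zero).1 h5

/-- a locally integrable weak solution of one of the equations `Q_α Ψ = 0` is smooth -/
theorem reg_one (α : Fin 16) {Ψ : Conf d → F} (hΨ : LocallyIntegrable Ψ (leb d))
    (hW : ∀ φ : Conf d → F, ContDiff ℝ ∞ φ → HasCompactSupport φ →
      ∫ x, inner ℂ (M.Q α φ x) (Ψ x) ∂leb d = 0) :
    ∃ Φ : Conf d → F, ContDiff ℝ ∞ Φ ∧ Ψ =ᵐ[leb d] Φ := by
  have hF : FiniteDimensional ℂ F := fdim M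
  refine ell_reg (cA_symm M α) (cB_symm M α) cp_smooth (Real.sqrt_nonneg 2)
    (elliptic M α) hΨ fun φ h1 h2 => ?_
  rw [← hW φ h1 h2, leb]
  exact integral_congr_ae (Eventually.of_forall fun x => by simp only [Q_eq])

end Vale.Agent.P353.H121
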