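import Vale.Agent.P353.H121.Zes

/-! # P353: square integrable weak solutions of `Q_α Ψ = 0` are zero-energy states (helper121) -/

open MeasureTheory Filter Topology
open scoped ContDiff

namespace Vale.Agent.P353.H121

set_option linter.unusedSectionVars false

open Vale.Agent.P353.BFSS

variable {N d : ℕ} {F : Type*} [NormedAddCommGroup F] [InnerProductSpace ℂ F]
  (M : Model N d F)

/-- radial cut off -/
noncomputable def ct (x : Conf d) : ℝ := Real.smoothTransition (2 - ‖x‖ ^ 2)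

theorem ct_smooth : ContDiff ℝ ∞ (ct (d := d)) :=
  Real.smoothTransition.contDiff.comp (contDiff_const.sub (contDiff_norm_sq ℝ))

theorem ct_one {x : Conf d} (h : ‖x‖ ≤ 1) : ct x = 1 := by
  refine Real.smoothTransition.one_of_one_le ?_
  have : ‖x‖ ^ 2 ≤ 1 := pow_le_one₀ (norm_nonneg _) h
  linarith

theorem ct_zero {x : Conf d} (h : 2 ≤ ‖x‖) : ct x = 0 := by
  refine Real.smoothTransition.zero_of_nonpos ?_
  nlinarith

theorem ct_supp : HasCompactSupport (ct (d := d)) := by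
  refine HasCompactSupport.intro (isCompact_closedBall 0 2) fun x hx => ct_zero ?_
  rw [mem_closedBall_zero_iff, not_le] at hx
  exact hx.le

theorem ct_nonneg (x : Conf d) : 0 ≤ ct x := Real.smoothTransition.nonneg _
theorem ct_le (x : Conf d) : ct x ≤ 1 := Real.smoothTransition.le_one _

/-- scaled cut off -/
noncomputable def cn (n : ℕ) (x : Conf d) : ℝ := ct (((n : ℝ) + 1)⁻¹ • x)

theorem cn_smooth (n : ℕ) : ContDiff ℝ ∞ (cn (d := d) n) :=
  ct_smooth.comp (((((n : ℝ) + 1)⁻¹) • ContinuousLinearMap.id ℝ (Conf d)).contDiff)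

theorem cn_supp (n : ℕ) : HasCompactSupport (cn (d := d) n) := by
  have h : ((n : ℝ) + 1)⁻¹ ≠ 0 := by positivity
  exact ct_supp.comp_smul h

theorem cn_act (n : ℕ) (U : SU N) (x : Conf d) : cn n (M.act U x) = cn n x := by
  unfold cn ct
  rw [norm_smul, norm_smul, act_norm]

theorem cn_dr (n : ℕ) (k : Idx d) (x : Conf d) :
    dr k (cn (d := d) n) x = ((n : ℝ) + 1)⁻¹ * dr k (ct (d := d)) (((n : ℝ) + 1)⁻¹ • x) := by
  have h1 : HasFDerivAt (fun y : Conf d => ((n : ℝ) + 1)⁻¹ • y)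
      (((n : ℝ) + 1)⁻¹ • ContinuousLinearMap.id ℝ (Conf d)) x :=
    ((((n : ℝ) + 1)⁻¹) • ContinuousLinearMap.id ℝ (Conf d)).hasFDerivAt
  have h2 : HasFDerivAt (ct (d := d)) (fderiv ℝ ct (((n : ℝ) + 1)⁻¹ • x)) (((n : ℝ) + 1)⁻¹ • x) :=
    ((ct_smooth.differentiable (by simp)).differentiableAt).hasFDerivAt
  have h3 : fderiv ℝ (cn (d := d) n) x = _ := (h2.comp x h1).fderiv
  unfold dr
  rw [h3]
  simp

theorem dr_bdd (k : Idx d) : ∃ C, ∀ x, |dr k (ct (d := d)) x| ≤ C := by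
  obtain ⟨C, hC⟩ := (dr_supp (k := k) (ct_supp (d := d))).exists_bound_of_continuous
    (dr_smooth (k := k) ct_smooth).continuous
  exact ⟨C, fun x => by simpa using hC x⟩

/-- the truncations -/
noncomputable def tr (Φ : Conf d → F) (n : ℕ) (x : Conf d) : F := cn n x • Φ x

theorem tr_core {Φ : Conf d → F} (hs : ContDiff ℝ ∞ Φ)
    (hinv : ∀ U x, Φ (M.act U x) = M.S U (Φ x)) (n : ℕ) : M.IsCore (tr Φ n) := by
  refine ⟨(cn_smooth n).smul hs, (cn_supp n).smul_right, fun U x => ?_⟩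
  have hr : ∀ (r : ℝ) (v : F), r • v = (r : ℂ) • v := fun r v => (Complex.coe_smul r v).symm
  simp only [tr, cn_act, hinv, hr, map_smul]

/-- energy of the truncations of a solution of one equation -/
theorem tq_tr {Φ : Conf d → F} (hs : ContDiff ℝ ∞ Φ) (hm : MemLp Φ 2 (leb d))
    (hinv : ∀ U x, Φ (M.act U x) = M.S U (Φ x)) (α : Fin 16) (hQ : ∀ x, M.Q α Φ x = 0) :
    Tendsto (fun n => tq M α (tr_core M hs hinv n)) atTop (𝓝 0) := by
  have hF : FiniteDimensional ℂ F := fdim M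
  have hbound : ∃ K, 0 ≤ K ∧ ∀ n x, ‖M.Q α (tr Φ n) x‖ ≤ K / ((n : ℝ) + 1) * ‖Φ x‖ := by
    choose C hC using dr_bdd (d := d)
    have hC0 : ∀ k, 0 ≤ C k := fun k => (abs_nonneg _).trans (hC k 0)
    refine ⟨∑ k, C k * ‖cA M α k‖, Finset.sum_nonneg fun k _ => by have := hC0 k; positivity,
      fun n x => ?_⟩
    have h1 : M.Q α (tr Φ n) x = (-Complex.I) • ∑ k, dr k (cn (d := d) n) x • cA M α k (Φ x) := by
      rw [Q_eq]
      have h0 := Dop_mul (cA M α) (cp (d := d)) (cB M α) (cn_smooth (d := d) n) hs x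
      rw [← Q_eq, ← Q_eq, hQ, smul_zero, zero_add] at h0
      rw [← Q_eq]
      exact h0
    rw [h1, norm_smul, norm_neg, Complex.norm_I, one_mul]
    refine (norm_sum_le _ _).trans ?_
    rw [div_mul_eq_mul_div, Finset.sum_mul, Finset.sum_div]
    refine Finset.sum_le_sum fun k _ => ?_
    rw [norm_smul, cn_dr, norm_mul, Real.norm_eq_abs, Real.norm_eq_abs,
      abs_of_nonneg (by positivity : (0 : ℝ) ≤ ((n : ℝ) + 1)⁻¹)]
    have h2 := (cA M α k).le_opNorm (Φ x)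
    have h3 := hC k (((n : ℝ) + 1)⁻¹ • x)
    have h4 := hC0 k
    calc ((n : ℝ) + 1)⁻¹ * |dr k (ct (d := d)) (((n : ℝ) + 1)⁻¹ • x)| * ‖cA M α k (Φ x)‖
        ≤ ((n : ℝ) + 1)⁻¹ * C k * (‖cA M α k‖ * ‖Φ x‖) := by gcongr
      _ = C k * ‖cA M α k‖ * ‖Φ x‖ / ((n : ℝ) + 1) := by ring
  obtain ⟨K, hK, hb⟩ := hbound
  rw [tendsto_zero_iff_norm_tendsto_zero]
  have h1 : ∀ n, ‖tq M α (tr_core M hs hinv n)‖ ≤ K / ((n : ℝ) + 1) * ‖hm.toLp Φ‖ := by
    intro n
    refine Lp.norm_le_mul_norm_of_ae_le_mul ?_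
    filter_upwards [(Q_mem M α (tr_core M hs hinv n).1 (tr_core M hs hinv n).2.1).coeFn_toLp,
      hm.coeFn_toLp] with x e1 e2
    rw [tq, e1, e2]
    exact hb n x
  refine squeeze_zero (fun n => norm_nonneg _) h1 ?_
  have h2 : Tendsto (fun n : ℕ => K / ((n : ℝ) + 1)) atTop (𝓝 0) :=
    tendsto_const_div_atTop_nhds_zero_nat K |>.comp (tendsto_add_atTop_nat 1) |>.congr
      fun n => by simp
  simpa using h2.mul_const ‖hm.toLp Φ‖

/-- if the energies of the truncations tend to zero then `Φ` is a zero-energy state -/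
theorem zes_of_tr {Φ : Conf d → F} (hs : ContDiff ℝ ∞ Φ) (hm : MemLp Φ 2 (leb d))
    (hinv : ∀ U x, Φ (M.act U x) = M.S U (Φ x))
    (htq : ∀ α, Tendsto (fun n => tq M α (tr_core M hs hinv n)) atTop (𝓝 0)) :
    M.IsZeroEnergyState Φ := by
  have hF : FiniteDimensional ℂ F := fdim M
  have hFc : CompleteSpace F := FiniteDimensional.complete ℂ F
  set u : ℕ → Conf d → F := tr Φ with hu
  have hcore : ∀ n, M.IsCore (u n) := tr_core M hs hinv
  refine ⟨hm, u, hcore, ?_, ?_, ?_⟩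
  · have h0 : (0 : ℝ) = ∫ x, (0 : ℝ) ∂leb d := by simp
    rw [h0]
    refine tendsto_integral_of_dominated_convergence (fun x => ‖Φ x‖ ^ 2) (fun n => ?_) ?_
      (fun n => ?_) ?_
    · exact (((hcore n).1.continuous.sub hs.continuous).norm.pow 2).aestronglyMeasurable
    · exact hm.integrable_norm_pow (by norm_num)
    · refine Eventually.of_forall fun x => ?_
      have e1 : u n x - Φ x = (cn n x - 1) • Φ x := by rw [sub_smul, one_smul, hu, tr]
      rw [e1, norm_smul, norm_pow, norm_mul, norm_norm, norm_norm, mul_pow]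
      have e2 : ‖cn (d := d) n x - 1‖ ≤ 1 := by
        rw [Real.norm_eq_abs, abs_le]
        have := ct_nonneg (((n : ℝ) + 1)⁻¹ • x)
        have := ct_le (((n : ℝ) + 1)⁻¹ • x)
        unfold cn
        constructor <;> linarith
      have e3 : ‖cn (d := d) n x - 1‖ ^ 2 ≤ 1 := pow_le_one₀ (norm_nonneg _) e2
      exact mul_le_of_le_one_left (by positivity) e3
    · refine Eventually.of_forall fun x => ?_
      refine tendsto_const_nhds.congr' ?_
      filter_upwards [eventually_ge_atTop ⌈‖x‖⌉₊] with n hn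
      have e1 : ‖x‖ ≤ n := (Nat.le_ceil _).trans (by exact_mod_cast hn)
      have e2 : cn (d := d) n x = 1 := by
        refine ct_one ?_
        rw [norm_smul, norm_inv, Real.norm_of_nonneg (by positivity : (0 : ℝ) ≤ (n : ℝ) + 1),
          inv_mul_le_iff₀ (by positivity)]
        linarith
      simp [hu, tr, e2]
  · have h1 : ∀ p : ℕ × ℕ, M.form (fun x => u p.1 x - u p.2 x) (fun x => u p.1 x - u p.2 x) =
        ((1 / 16 * ∑ α, ‖tq M α (hcore p.1) - tq M α (hcore p.2)‖ ^ 2 : ℝ) : ℂ) := by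
      intro p
      rw [form_self M (core_sub M (hcore p.1) (hcore p.2))]
      simp only [tq_sub M _ (hcore p.1) (hcore p.2)]
    simp only [h1]
    have h2 : ∀ α, Tendsto (fun p : ℕ × ℕ => ‖tq M α (hcore p.1) - tq M α (hcore p.2)‖ ^ 2) atTop
        (𝓝 0) := by
      intro α
      have h3 : Tendsto (fun p : ℕ × ℕ => tq M α (hcore p.1)) atTop (𝓝 0) := by
        rw [← prod_atTop_atTop_eq]
        exact (htq α).comp tendsto_fst
      have h4 : Tendsto (fun p : ℕ × ℕ => tq M α (hcore p.2)) atTop (𝓝 0) := by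
        rw [← prod_atTop_atTop_eq]
        exact (htq α).comp tendsto_snd
      simpa using ((h3.sub h4).norm.pow 2)
    have h5 : Tendsto (fun p : ℕ × ℕ => (1 / 16 * ∑ α, ‖tq M α (hcore p.1) - tq M α (hcore p.2)‖ ^ 2
        : ℝ)) atTop (𝓝 0) := by
      simpa using (tendsto_finsetSum Finset.univ fun α _ => h2 α).const_mul (1 / 16 : ℝ)
    have h6 := (Complex.continuous_ofReal.tendsto 0).comp h5
    rw [Complex.ofReal_zero] at h6
    exact h6
  · intro φ hφ
    have h1 : ∀ n, M.form φ (u n) = (1 / 16 : ℂ) * ∑ α, inner ℂ (tq M α hφ) (tq M α (hcore n)) :=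
      fun n => form_eq M hφ (hcore n)
    simp only [h1]
    have h2 : ∀ α, Tendsto (fun n => (inner ℂ (tq M α hφ) (tq M α (hcore n)) : ℂ)) atTop (𝓝 0) := by
      intro α
      have h3 : Tendsto (fun n => (inner ℂ (tq M α hφ) (tq M α (hcore n)) : ℂ)) atTop
          (𝓝 (inner ℂ (tq M α hφ) (0 : Lp F 2 (leb d)))) := tendsto_const_nhds.inner (htq α)
      rwa [inner_zero_right] at h3
    simpa using (tendsto_finsetSum Finset.univ fun α _ => h2 α).const_mul (1 / 16 : ℂ)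

/-- a smooth invariant square integrable solution of `Q_α Φ = 0` (all `α`) is a zero-energy
state: no condition at infinity is needed -/
theorem zes_of_classical {Φ : Conf d → F} (hs : ContDiff ℝ ∞ Φ) (hm : MemLp Φ 2 (leb d))
    (hinv : ∀ U x, Φ (M.act U x) = M.S U (Φ x)) (hQ : ∀ α x, M.Q α Φ x = 0) :
    M.IsZeroEnergyState Φ :=
  zes_of_tr M hs hm hinv fun α => tq_tr M hs hm hinv α (hQ α)

/-- the kernel only depends on the almost everywhere class -/
theorem zes_congr {Ψ Φ : Conf d → F} (h : M.IsZeroEnergyState Φ) (hae : ∀ᵐ x ∂leb d, Ψ x = Φ x) :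
    M.IsZeroEnergyState Ψ := by
  obtain ⟨hm, u, hu, hL, hC, hW⟩ := h
  refine ⟨(memLp_congr_ae hae).2 hm, u, hu, ?_, hC, hW⟩
  have : ∀ n, ∫ x, ‖u n x - Ψ x‖ ^ 2 ∂leb d = ∫ x, ‖u n x - Φ x‖ ^ 2 ∂leb d := by
    intro n
    refine integral_congr_ae ?_
    filter_upwards [hae] with x hx
    rw [hx]
  simp only [this]
  exact hL

/-- smooth representative of an invariant weak solution of one equation -/
theorem rep_of_weak {Ψ : Conf d → F} (hm : MemLp Ψ 2 (leb d))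
    (hinv : ∀ U, ∀ᵐ x ∂leb d, Ψ (M.act U x) = M.S U (Ψ x)) (α : Fin 16)
    (hW : WeakSol M α Ψ) : ∃ Φ : Conf d → F, ContDiff ℝ ∞ Φ ∧ (∀ᵐ x ∂leb d, Ψ x = Φ x) ∧
      MemLp Φ 2 (leb d) ∧ ∀ U x, Φ (M.act U x) = M.S U (Φ x) := by
  have hloc : LocallyIntegrable Ψ (leb d) := hm.locallyIntegrable (by norm_num)
  obtain ⟨Φ, hs, hae⟩ := reg_one M α hloc hW
  refine ⟨Φ, hs, hae, (memLp_congr_ae hae).1 hm, fun U x => ?_⟩
  have h1 : (fun x => Φ (M.act U x)) =ᵐ[leb d] fun x => M.S U (Φ x) := by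
    have h2 : ∀ᵐ x ∂leb d, Ψ (M.act U x) = Φ (M.act U x) :=
      (act_mp M U).quasiMeasurePreserving.ae hae
    filter_upwards [h2, hae, hinv U] with x e1 e2 e3
    rw [← e1, e3, e2]
  have h3 : (fun x => Φ (M.act U x)) = fun x => M.S U (Φ x) :=
    (Continuous.ae_eq_iff_eq (leb d) (hs.continuous.comp (act_cont M U))
      ((M.S U).continuous.comp hs.continuous)).1 h1
  exact congrFun h3 x

theorem classical_of_weak {Ψ Φ : Conf d → F} (hs : ContDiff ℝ ∞ Φ) (hae : ∀ᵐ x ∂leb d, Ψ x = Φ x)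
    (α : Fin 16) (hW : WeakSol M α Ψ) (x : Conf d) : M.Q α Φ x = 0 := by
  have hF : FiniteDimensional ℂ F := fdim M
  rw [Q_eq]
  refine classical (cA_symm M α) (cB_symm M α) cp_smooth hs (fun φ h1 h2 => ?_) x
  rw [← hW φ h1 h2, leb]
  refine integral_congr_ae ?_
  filter_upwards [hae] with x hx
  rw [← Q_eq, hx]

/-- **No condition at infinity**: the zero-energy states are exactly the square integrable gauge
invariant distributional solutions of `Q_α Ψ = 0`, `1 ≤ α ≤ 16`. -/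
theorem zes_iff_weak {Ψ : Conf d → F} : M.IsZeroEnergyState Ψ ↔ MemLp Ψ 2 (leb d) ∧
    (∀ U, ∀ᵐ x ∂leb d, Ψ (M.act U x) = M.S U (Ψ x)) ∧ ∀ α, WeakSol M α Ψ := by
  refine ⟨fun h => ⟨h.1, invariant_of_zes M h, weak_of_zes M h⟩, ?_⟩
  rintro ⟨hm, hinv, hW⟩
  obtain ⟨Φ, hs, hae, hmΦ, hi⟩ := rep_of_weak M hm hinv 0 (hW 0)
  exact zes_congr M (zes_of_classical M hs hmΦ hi fun α x =>
    classical_of_weak M hs hae α (hW α) x) hae

theorem norm_tq_sq {u : Conf d → F} (hu : M.IsCore u) (α : Fin 16) :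
    ‖tq M α hu‖ ^ 2 = ∫ x, ‖M.Q α u x‖ ^ 2 ∂leb d := by
  have h1 := norm_sub_sq (Q_mem M α hu.1 hu.2.1) (MemLp.zero (p := 2) (μ := leb d) (ε := F))
  rw [MemLp.toLp_zero, sub_zero] at h1
  rw [tq, h1]
  refine integral_congr_ae (Eventually.of_forall fun x => ?_)
  simp only [Pi.zero_apply, sub_zero]

/-- one supercharge is enough -/
theorem zes_iff_one (hQQ : ∀ u, M.IsCore u → ∀ α β, ∫ x, ‖M.Q α u x‖ ^ 2 ∂leb d =
      ∫ x, ‖M.Q β u x‖ ^ 2 ∂leb d) (α : Fin 16) {Ψ : Conf d → F} :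
    M.IsZeroEnergyState Ψ ↔ MemLp Ψ 2 (leb d) ∧
    (∀ U, ∀ᵐ x ∂leb d, Ψ (M.act U x) = M.S U (Ψ x)) ∧ WeakSol M α Ψ := by
  refine ⟨fun h => ⟨h.1, invariant_of_zes M h, weak_of_zes M h α⟩, ?_⟩
  rintro ⟨hm, hinv, hW⟩
  obtain ⟨Φ, hs, hae, hmΦ, hi⟩ := rep_of_weak M hm hinv α hW
  refine zes_congr M (zes_of_tr M hs hmΦ hi fun β => ?_) hae
  have h1 := tq_tr M hs hmΦ hi α (classical_of_weak M hs hae α hW)
  rw [tendsto_zero_iff_norm_tendsto_zero] at h1 ⊢
  refine h1.congr fun n => ?_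
  have h2 : ‖tq M α (tr_core M hs hi n)‖ ^ 2 = ‖tq M β (tr_core M hs hi n)‖ ^ 2 := by
    rw [norm_tq_sq, norm_tq_sq]
    exact hQQ _ (tr_core M hs hi n) α β
  exact (pow_left_inj₀ (norm_nonneg _) (norm_nonneg _) two_ne_zero).1 h2

end Vale.Agent.P353.H121
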