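import Mathlib

/-! # Elliptic regularity for Dirac type operators, by Fourier bootstrapping (helper121) -/

open MeasureTheory Filter Topology FourierTransform
open scoped ContDiff

namespace Vale.Agent.P353.H121

section FourierReg

variable {V : Type*} [NormedAddCommGroup V] [InnerProductSpace ℝ V] [FiniteDimensional ℝ V]
  [MeasurableSpace V] [BorelSpace V]
  {F : Type*} [NormedAddCommGroup F] [NormedSpace ℂ F] [CompleteSpace F]

theorem flip_int {φ : V → ℂ} {f : V → F} (hφ : Integrable φ) (hf : Integrable f) :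
    ∫ ξ, 𝓕 φ ξ • f ξ = ∫ x, φ x • 𝓕 f x := by
  simpa using! VectorFourier.integral_fourierIntegral_smul_eq_flip (L := innerₗ V)
    Real.continuous_fourierChar continuous_inner hφ hf

/-- Fourier inversion almost everywhere -/
theorem ae_eq_fourierInv {f : V → F} (hf : Integrable f) (hF : Integrable (𝓕 f)) :
    f =ᵐ[volume] 𝓕⁻ (𝓕 f) := by
  have hcont : Continuous (𝓕⁻ (𝓕 f)) := by
    rw [Real.fourierInv_eq_fourier_comp_neg]
    exact VectorFourier.fourierIntegral_continuous Real.continuous_fourierChar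
      (by exact continuous_inner) (hF.comp_neg)
  refine ae_eq_of_integral_contDiff_smul_eq hf.locallyIntegrable hcont.locallyIntegrable ?_
  intro g hg hgc
  set gc : V → ℂ := fun x => (g x : ℂ) with hgc_def
  have hgc1 : ContDiff ℝ ∞ gc := Complex.ofRealCLM.contDiff.comp hg
  have hgc2 : HasCompactSupport gc := hgc.comp_left (g := fun t : ℝ => (t : ℂ)) (by simp)
  set G : SchwartzMap V ℂ := hgc2.toSchwartzMap hgc1 with hG
  have hGc : ∀ x, G x = gc x := fun x => rfl
  have hGi : Integrable gc := G.integrable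
  set ψ : SchwartzMap V ℂ := 𝓕⁻ G with hψ
  have h1 : ∀ x, 𝓕 (ψ : V → ℂ) x = gc x := by
    intro x
    have h2 : 𝓕 ψ = G := by rw [hψ]; exact FourierTransform.fourier_fourierInv_eq G
    rw [← hGc, ← h2]
    rfl
  have h3 : ∀ x, 𝓕 (fun y => gc (-y)) x = ψ x := by
    intro x
    have h4 : (ψ : V → ℂ) = 𝓕⁻ gc := by
      rw [hψ]
      exact SchwartzMap.fourierInv_coe G
    rw [h4, Real.fourierInv_eq_fourier_comp_neg]
  have e1 : ∫ x, g x • f x = ∫ x, ψ x • 𝓕 f x := by
    rw [← flip_int ψ.integrable hf]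
    refine integral_congr_ae (Eventually.of_forall fun x => ?_)
    simp only [h1]
    exact (Complex.coe_smul (g x) (f x)).symm
  have e2 : ∫ x, g x • 𝓕⁻ (𝓕 f) x = ∫ x, ψ x • 𝓕 f x := by
    have h5 : ∫ x, ψ x • 𝓕 f x = ∫ x, (fun y => gc (-y)) x • 𝓕 (𝓕 f) x := by
      rw [← flip_int hGi.comp_neg hF]
      refine integral_congr_ae (Eventually.of_forall fun x => ?_)
      simp only [h3]
    rw [h5, ← integral_neg_eq_self]
    refine integral_congr_ae (Eventually.of_forall fun x => ?_)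
    simp only [Real.fourierInv_eq_fourier_neg, neg_neg]
    exact (Complex.coe_smul (g (-x)) _).symm
  rw [e1, e2]

/-- a function whose Fourier transform decays rapidly is smooth -/
theorem smooth_of_decay {f : V → F} (hf : Integrable f)
    (h : ∀ n : ℕ, ∃ C, ∀ ξ, ‖ξ‖ ^ n * ‖𝓕 f ξ‖ ≤ C) :
    ∃ g : V → F, ContDiff ℝ ∞ g ∧ f =ᵐ[volume] g := by
  have hcont : Continuous (𝓕 f) :=
    VectorFourier.fourierIntegral_continuous Real.continuous_fourierChar
      (by exact continuous_inner) hf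
  have hint : ∀ n : ℕ, Integrable (fun ξ => ‖ξ‖ ^ n * ‖𝓕 f ξ‖) := by
    intro n
    set r : ℕ := Module.finrank ℝ V + 1 with hr
    obtain ⟨C1, h1⟩ := h n
    obtain ⟨C2, h2⟩ := h (n + r)
    have hI : Integrable (fun ξ : V => (2 : ℝ) ^ r * (C1 + C2) * (1 + ‖ξ‖) ^ (-(r : ℝ))) :=
      (integrable_one_add_norm (by rw [hr]; push_cast; linarith)).const_mul _
    refine hI.mono' ?_ ?_
    · exact ((continuous_norm.pow n).mul hcont.norm).aestronglyMeasurable
    · refine Eventually.of_forall fun ξ => ?_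
      have hp : (0 : ℝ) < 1 + ‖ξ‖ := by positivity
      have h0 : 0 ≤ ‖ξ‖ ^ n * ‖𝓕 f ξ‖ := by positivity
      rw [Real.norm_of_nonneg h0, Real.rpow_neg hp.le, ← div_eq_mul_inv, le_div_iff₀ (by positivity),
        Real.rpow_natCast]
      have h3 : (1 + ‖ξ‖) ^ r ≤ 2 ^ r * (1 + ‖ξ‖ ^ r) := by
        rcases le_total ‖ξ‖ 1 with h4 | h4
        · calc (1 + ‖ξ‖) ^ r ≤ 2 ^ r := by gcongr; linarith
            _ ≤ 2 ^ r * (1 + ‖ξ‖ ^ r) := by
              have : (0 : ℝ) ≤ ‖ξ‖ ^ r := by positivity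
              nlinarith [pow_pos (two_pos : (0 : ℝ) < 2) r]
        · calc (1 + ‖ξ‖) ^ r ≤ (2 * ‖ξ‖) ^ r := by gcongr; linarith
            _ = 2 ^ r * ‖ξ‖ ^ r := mul_pow _ _ _
            _ ≤ 2 ^ r * (1 + ‖ξ‖ ^ r) := by
              have := pow_pos (two_pos : (0 : ℝ) < 2) r
              nlinarith
      calc ‖ξ‖ ^ n * ‖𝓕 f ξ‖ * (1 + ‖ξ‖) ^ r ≤ ‖ξ‖ ^ n * ‖𝓕 f ξ‖ * (2 ^ r * (1 + ‖ξ‖ ^ r)) := by
            gcongr
        _ = 2 ^ r * (‖ξ‖ ^ n * ‖𝓕 f ξ‖ + ‖ξ‖ ^ (n + r) * ‖𝓕 f ξ‖) := by rw [pow_add]; ring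
        _ ≤ 2 ^ r * (C1 + C2) := by
            gcongr
            · exact h1 ξ
            · exact h2 ξ
  have hF : Integrable (𝓕 f) := by
    have := hint 0
    simp only [pow_zero, one_mul] at this
    exact (integrable_norm_iff hcont.aestronglyMeasurable).1 this
  refine ⟨𝓕⁻ (𝓕 f), ?_, ae_eq_fourierInv hf hF⟩
  have h6 : ContDiff ℝ ∞ (𝓕 (𝓕 f)) := Real.contDiff_fourier (N := ⊤) fun n _ => hint n
  have h7 : 𝓕⁻ (𝓕 f) = fun x => 𝓕 (𝓕 f) (-x) := by
    ext x; exact Real.fourierInv_eq_fourier_neg _ _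
  rw [h7]
  exact h6.comp contDiff_neg

omit [CompleteSpace F] in
/-- gluing of local smooth representatives -/
theorem smooth_of_local {Ψ : V → F} (h : ∀ χ : V → ℝ, ContDiff ℝ ∞ χ → HasCompactSupport χ →
      ∃ g : V → F, ContDiff ℝ ∞ g ∧ (fun x => χ x • Ψ x) =ᵐ[volume] g) :
    ∃ Φ : V → F, ContDiff ℝ ∞ Φ ∧ Ψ =ᵐ[volume] Φ := by
  have h1 : ∀ n : ℕ, ∃ g : V → F, ContDiff ℝ ∞ g ∧
      ∀ᵐ x ∂(volume : Measure V), x ∈ Metric.ball (0 : V) (n + 1) → Ψ x = g x := by
    intro n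
    let b : ContDiffBump (0 : V) := ⟨(n : ℝ) + 1, n + 2, by positivity, by linarith⟩
    obtain ⟨g, hg, hg2⟩ := h b b.contDiff b.hasCompactSupport
    refine ⟨g, hg, ?_⟩
    filter_upwards [hg2] with x hx hxb
    rw [← hx, b.one_of_mem_closedBall (Metric.ball_subset_closedBall hxb), one_smul]
  choose g hg hga using h1
  have hcons : ∀ m n : ℕ, m ≤ n → ∀ x ∈ Metric.ball (0 : V) (m + 1), g m x = g n x := by
    intro m n hmn x hx
    have h2 : ∀ᵐ x ∂(volume : Measure V).restrict (Metric.ball (0 : V) (m + 1)), g m x = g n x := by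
      rw [ae_restrict_iff' measurableSet_ball]
      filter_upwards [hga m, hga n] with y h3 h4 hy
      rw [← h3 hy, ← h4 (Metric.ball_subset_ball (by exact_mod_cast Nat.succ_le_succ hmn) hy)]
    exact Measure.eqOn_open_of_ae_eq h2 Metric.isOpen_ball (hg m).continuous.continuousOn
      (hg n).continuous.continuousOn hx
  refine ⟨fun x => g ⌈‖x‖⌉₊ x, ?_, ?_⟩
  · rw [contDiff_iff_contDiffAt]
    intro x
    set n := ⌈‖x‖⌉₊ + 1 with hn
    have h5 : (fun y => g ⌈‖y‖⌉₊ y) =ᶠ[𝓝 x] g n := by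
      have h6 : Metric.ball (0 : V) n ∈ 𝓝 x := by
        refine Metric.isOpen_ball.mem_nhds ?_
        rw [mem_ball_zero_iff, hn]
        have := Nat.le_ceil ‖x‖
        push_cast
        linarith
      filter_upwards [h6] with y hy
      rw [mem_ball_zero_iff] at hy
      refine hcons _ _ ?_ y ?_
      · exact Nat.ceil_le.2 hy.le
      · rw [mem_ball_zero_iff]
        have := Nat.le_ceil ‖y‖
        linarith
    exact (hg n).contDiffAt.congr_of_eventuallyEq h5
  · filter_upwards [ae_all_iff.2 hga] with x hx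
    refine hx ⌈‖x‖⌉₊ ?_
    rw [mem_ball_zero_iff]
    have := Nat.le_ceil ‖x‖
    linarith

end FourierReg

end Vale.Agent.P353.H121
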