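import Vale.Agent.P353.H48.Defs

/-!
# Physical wave functions, distributional solutions, classical vacua
-/

open MeasureTheory Filter Topology
open scoped ContDiff

namespace Vale.Agent.P353.BFSS

variable {N d : ℕ} {F : Type*} [NormedAddCommGroup F] [InnerProductSpace ℂ F]

/-- `Ψ` is almost everywhere a complex multiple of `Φ`. -/
def IsMultiple (Φ Ψ : Conf d → F) : Prop := ∃ c : ℂ, ∀ᵐ x ∂leb d, Ψ x = c • Φ x

namespace Model

/-- `Ψ` is physical: square integrable and `SU(N)`-invariant. -/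
def IsPhysical (M : Model N d F) (Ψ : Conf d → F) : Prop :=
  MemLp Ψ 2 (leb d) ∧ ∀ U : SU N, ∀ᵐ x ∂leb d, Ψ (M.act U x) = M.S U (Ψ x)

/-- `Q_α^{(m)} Ψ = 0` in the sense of distributions: `⟨Q_α^{(m)} φ, Ψ⟩ = 0` for every smooth
compactly supported `φ`. -/
def IsDistSolution (M : Model N d F) (m : ℝ) (α : Fin 16) (Ψ : Conf d → F) : Prop :=
  ∀ φ : Conf d → F, ContDiff ℝ ∞ φ → HasCompactSupport φ →
    ∫ x, inner ℂ (M.massQ m α φ x) (Ψ x) ∂leb d = 0

/-- `Φ` is a classical vacuum: `C^∞`, square integrable, `SU(N)`-invariant at every point, and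
`Q_α^{(m)} Φ = 0` at every point for all sixteen `α`. -/
def IsClassicalVacuum (M : Model N d F) (m : ℝ) (Φ : Conf d → F) : Prop :=
  ContDiff ℝ ∞ Φ ∧ MemLp Φ 2 (leb d) ∧ (∀ U x, Φ (M.act U x) = M.S U (Φ x)) ∧
    ∀ α x, M.massQ m α Φ x = 0

/-- `Φ_1, …, Φ_n` are linearly independent classical vacua whose linear combinations are, up to
sets of measure zero, exactly the elements of `ker H_{N,m}`. -/
def IsVacuumBasis (M : Model N d F) (m : ℝ) {n : ℕ} (Φ : Fin n → Conf d → F) : Prop :=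
  (∀ j, M.IsClassicalVacuum m (Φ j)) ∧
    (∀ c : Fin n → ℂ, (∀ x, ∑ j, c j • Φ j x = 0) → c = 0) ∧
    ∀ Ψ, M.IsGroundState m Ψ ↔ ∃ c : Fin n → ℂ, ∀ᵐ x ∂leb d, Ψ x = ∑ j, c j • Φ j x

/-- `Φ` is even for some fermion parity `Γ`: a self-adjoint involution that anticommutes with all
generators `θ` and commutes with the gauge group. -/
def IsEven (M : Model N d F) (Φ : Conf d → F) : Prop :=
  ∃ Γ : F →L[ℂ] F, (∀ v, Γ (Γ v) = v) ∧ (∀ v w, inner ℂ (Γ v) w = inner ℂ v (Γ w)) ∧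
    (∀ α A v, Γ (M.θ α A v) = - M.θ α A (Γ v)) ∧ (∀ U v, Γ (M.S U v) = M.S U (Γ v)) ∧
    ∀ x, Γ (Φ x) = Φ x

/-- `Φ` is the `L²` limit, as `m → 0+`, of classical vacua of the models with mass `m`. -/
def IsMasslessLimit (M : Model N d F) (Φ : Conf d → F) : Prop :=
  ∃ Ψ : ℝ → Conf d → F, (∀ m : ℝ, 0 < m → M.IsClassicalVacuum m (Ψ m)) ∧
    Tendsto (fun m : ℝ => ∫ x, ‖Ψ m x - Φ x‖ ^ 2 ∂leb d) (𝓝[>] 0) (𝓝 0)

end Model

end Vale.Agent.P353.BFSS
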