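import Vale.Agent.P353.H121.Mass
import Vale.Agent.P353.H121.Stmt
import Vale.Agent.P353.H839.Parity

/-! # P353: linear combinations and parity (helper121) -/

open MeasureTheory Filter Topology
open scoped ContDiff

namespace Vale.Agent.P353.H121

set_option linter.unusedSectionVars false

open Vale.Agent.P353.BFSS

variable {N d : ℕ} {F : Type*} [NormedAddCommGroup F] [InnerProductSpace ℂ F]
  (M : Model N d F)

theorem mQ_zero (α : Fin 16) (u : Conf d → F) (x : Conf d) : M.massQ 0 α u x = M.Q α u x := by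
  simp [Model.massQ]

theorem ground_iff {m : ℝ} {Ψ : Conf d → F} :
    M.IsGroundState m Ψ ↔ M.IsPhysical Ψ ∧ ∀ α, M.IsDistSolution m α Ψ := by
  rw [ground_iff_all M]
  constructor
  · rintro ⟨h1, h2, h3⟩
    exact ⟨⟨h1, h2⟩, h3⟩
  · rintro ⟨⟨h1, h2⟩, h3⟩
    exact ⟨h1, h2, h3⟩

theorem ground_iff_class {m : ℝ} {Ψ : Conf d → F} :
    M.IsGroundState m Ψ ↔ ∃ Φ, M.IsClassicalVacuum m Φ ∧ ∀ᵐ x ∂leb d, Ψ x = Φ x := by
  constructor
  · intro h
    obtain ⟨Φ, h1, h2, h3, h4, h5⟩ := mclassical_of_ground M h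
    exact ⟨Φ, ⟨h1, h3, h4, h5⟩, h2⟩
  · rintro ⟨Φ, ⟨h1, h3, h4, h5⟩, h2⟩
    refine ground_congr M ⟨h3, tr Φ, tr_core M h1 h4, tr_lim h1 h3, ?_⟩ h2
    have h6 := fun α => mtr M h1 h3 α (h5 α)
    simpa [Model.massForm] using
      (tendsto_finsetSum Finset.univ fun α _ => h6 α).const_mul (1 / 16 : ℝ)

theorem ground_of_class {m : ℝ} {Φ : Conf d → F} (h : M.IsClassicalVacuum m Φ) :
    M.IsGroundState m Φ := (ground_iff_class M).2 ⟨Φ, h, Eventually.of_forall fun _ => rfl⟩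

theorem inner_int {f g : Conf d → F} (hf : MemLp f 2 (leb d)) (hg : MemLp g 2 (leb d)) :
    Integrable (fun x => inner ℂ (f x) (g x)) (leb d) := by
  have hn : Integrable (fun x => ‖f x‖ ^ 2 + ‖g x‖ ^ 2) (leb d) :=
    (hf.integrable_norm_pow (by norm_num)).add (hg.integrable_norm_pow (by norm_num))
  refine hn.mono' (hf.1.inner hg.1) (Eventually.of_forall fun x => ?_)
  refine (norm_inner_le_norm _ _).trans ?_
  nlinarith [sq_nonneg (‖f x‖ - ‖g x‖), sq_nonneg (‖f x‖), sq_nonneg ‖g x‖]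

/-- linear combinations of ground states are ground states -/
theorem ground_comb {m : ℝ} {n : ℕ} {Φ : Fin n → Conf d → F} (h : ∀ j, M.IsGroundState m (Φ j))
    (c : Fin n → ℂ) : M.IsGroundState m fun x => ∑ j, c j • Φ j x := by
  rw [ground_iff_all M]
  have h1 := fun j => (ground_iff_all M).1 (h j)
  refine ⟨memLp_finsetSum _ fun j _ => (h1 j).1.const_smul (c j), fun U => ?_, fun α φ hφ hc => ?_⟩
  · have h2 : ∀ᵐ x ∂leb d, ∀ j, Φ j (M.act U x) = M.S U (Φ j x) :=
      ae_all_iff.2 fun j => (h1 j).2.1 U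
    filter_upwards [h2] with x hx
    simp only [hx, map_sum, map_smul]
  · have h3 : ∀ x, inner ℂ (M.massQ m α φ x) (∑ j, c j • Φ j x) =
        ∑ j, c j * inner ℂ (M.massQ m α φ x) (Φ j x) := by
      intro x
      rw [inner_sum]
      exact Finset.sum_congr rfl fun j _ => inner_smul_right _ _ _
    simp only [h3]
    rw [integral_finsetSum _ fun j _ => (inner_int (mQ_mem M m α hφ hc) (h1 j).1).const_mul (c j)]
    refine Finset.sum_eq_zero fun j _ => ?_
    rw [integral_const_mul, (h1 j).2.2 α φ hφ hc, mul_zero]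

theorem ground_smul {m : ℝ} {Φ : Conf d → F} (h : M.IsGroundState m Φ) (c : ℂ) :
    M.IsGroundState m fun x => c • Φ x := by
  simpa using ground_comb M (n := 1) (Φ := fun _ => Φ) (fun _ => h) fun _ => c

/-- an operator that anticommutes with the coefficients anticommutes with the operator -/
theorem Dop_anti {ι κ : Type*} [Fintype ι] [DecidableEq ι] [Fintype κ]
    {A : ι → F →L[ℂ] F} {p : κ → EuclideanSpace ℝ ι → ℝ} {B : κ → F →L[ℂ] F} {Γ : F →L[ℂ] F}
    (hA : ∀ k v, Γ (A k v) = -A k (Γ v)) (hB : ∀ k v, Γ (B k v) = -B k (Γ v))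
    {u : EuclideanSpace ℝ ι → F} (hu : ContDiff ℝ ∞ u) (x : EuclideanSpace ℝ ι) :
    Dop A p B (fun y => Γ (u y)) x = -Γ (Dop A p B u x) := by
  have h1 : HasFDerivAt (fun y => Γ (u y)) ((Γ.restrictScalars ℝ).comp (fderiv ℝ u x)) x :=
    (Γ.restrictScalars ℝ).hasFDerivAt.comp x (smooth_diff hu x).hasFDerivAt
  rw [Dop_fd _ _ _ h1.differentiableAt, Dop_fd _ _ _ (smooth_diff hu x), h1.fderiv]
  simp only [map_add, map_smul, map_sum, hA, hB, ContinuousLinearMap.comp_apply,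
    ContinuousLinearMap.coe_restrictScalars', smul_neg, Finset.sum_neg_distrib, neg_add, neg_neg]

theorem massQ_anti {Γ : F →L[ℂ] F} (hΓ : ∀ α A v, Γ (M.θ α A v) = -M.θ α A (Γ v)) (m : ℝ)
    (α : Fin 16) {u : Conf d → F} (hu : ContDiff ℝ ∞ u) (x : Conf d) :
    M.massQ m α (fun y => Γ (u y)) x = -Γ (M.massQ m α u x) := by
  rw [massQ_eq, massQ_eq]
  refine Dop_anti (fun k v => ?_) (fun k v => ?_) hu x
  · simp only [cA, _root_.sum_apply, _root_.smul_apply, map_sum, map_smul, hΓ, smul_neg,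
      Finset.sum_neg_distrib]
  · rcases k with k | q
    · simp only [mB, cB, _root_.smul_apply, map_smul, hΓ, smul_neg]
    · simp only [mB, _root_.smul_apply, map_smul, hΓ, smul_neg]

/-- the parity of a classical vacuum is a classical vacuum -/
theorem class_parity {Γ : F →L[ℂ] F} (hΓ : ∀ α A v, Γ (M.θ α A v) = -M.θ α A (Γ v))
    (hS : ∀ U v, Γ (M.S U v) = M.S U (Γ v)) {m : ℝ} {Φ : Conf d → F}
    (h : M.IsClassicalVacuum m Φ) : M.IsClassicalVacuum m fun x => Γ (Φ x) := by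
  obtain ⟨h1, h2, h3, h4⟩ := h
  refine ⟨clm_smooth Γ h1, Γ.comp_memLp' h2, fun U x => ?_, fun α x => ?_⟩
  · change Γ (Φ (M.act U x)) = M.S U (Γ (Φ x))
    rw [h3, hS]
  · rw [massQ_anti M hΓ m α h1 x, h4, map_zero, neg_zero]

/-- continuous functions that agree almost everywhere agree -/
theorem eq_of_ae {f g : Conf d → F} (hf : Continuous f) (hg : Continuous g)
    (h : ∀ᵐ x ∂leb d, f x = g x) : f = g :=
  (Continuous.ae_eq_iff_eq (leb d) hf hg).1 h

/-- the unique classical vacuum is even for a suitable grading -/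
theorem parity_of_unique {m : ℝ} {Φ : Conf d → F} (h : M.IsClassicalVacuum m Φ)
    (h0 : Φ ≠ fun _ => 0)
    (hu : ∀ Ψ, M.IsGroundState m Ψ → ∃ c : ℂ, ∀ᵐ x ∂leb d, Ψ x = c • Φ x) :
    ∃ Γ : F →L[ℂ] F, (∀ v, Γ (Γ v) = v) ∧ (∀ v w, inner ℂ (Γ v) w = inner ℂ v (Γ w)) ∧
      (∀ α A v, Γ (M.θ α A v) = - M.θ α A (Γ v)) ∧ (∀ U v, Γ (M.S U v) = M.S U (Γ v)) ∧
      ∀ x, Γ (Φ x) = Φ x := by
  have hF : FiniteDimensional ℂ F := fdim M
  obtain ⟨Γ, h1, h2, h3, h4, -⟩ := H839.parity M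
  have h5 := class_parity M h3 h4 h
  obtain ⟨c, hc⟩ := hu _ (ground_of_class M h5)
  have h6 : (fun x => Γ (Φ x)) = fun x => c • Φ x :=
    eq_of_ae h5.1.continuous (h.1.continuous.const_smul c) hc
  have h7 : ∀ x, Γ (Φ x) = c • Φ x := fun x => congrFun h6 x
  obtain ⟨x0, hx0⟩ : ∃ x, Φ x ≠ 0 := by
    by_contra hcon
    push Not at hcon
    exact h0 (funext hcon)
  have h8 : (c * c) • Φ x0 = (1 : ℂ) • Φ x0 := by
    have h9 := h1 (Φ x0)
    rw [h7, map_smul, h7, smul_smul] at h9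
    rw [h9, one_smul]
  have h9 : c * c = 1 := smul_left_injective ℂ hx0 h8
  have h10 : (starRingEnd ℂ) c = c := by
    rcases mul_self_eq_one_iff.1 h9 with h | h <;> simp [h]
  refine ⟨c • Γ, fun v => ?_, fun v w => ?_, fun α A v => ?_, fun U v => ?_, fun x => ?_⟩
  · simp only [_root_.smul_apply, map_smul, smul_smul, h9, one_smul, h1]
  · simp only [_root_.smul_apply, inner_smul_left, inner_smul_right, h10, h2]
  · simp only [_root_.smul_apply, map_smul, h3, smul_neg]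
  · simp only [_root_.smul_apply, map_smul, h4]
  · rw [_root_.smul_apply, h7, smul_smul, h9, one_smul]

end Vale.Agent.P353.H121
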