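import Vale.Agent.P353.H121.OneQ
import Vale.Agent.P353.H121.Lin
import Vale.Agent.P353.H48.Main

/-! # P353: the classical form of the threshold-bound-state theorem (helper121) -/

set_option linter.all false

open MeasureTheory Filter Topology
open scoped ContDiff

namespace Vale.Agent.P353.H121

open Vale.Agent.P353.BFSS

variable {N d : ℕ} {F : Type*} [NormedAddCommGroup F] [InnerProductSpace ℂ F]

/-- the massless model has exactly one classical vacuum up to scalars -/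
theorem one_classical (hN : 2 ≤ N) (M : BFSS.Model N d F) :
    ∃ Φ : Conf d → F, M.IsClassicalVacuum 0 Φ ∧ ∫ x, ‖Φ x‖ ^ 2 ∂leb d = 1 ∧
      (∀ Ψ, M.IsGroundState 0 Ψ ↔ ∃ c : ℂ, ∀ᵐ x ∂leb d, Ψ x = c • Φ x) := by
  have hF : FiniteDimensional ℂ F := fdim M
  obtain ⟨Φ0, h1, h2, h3⟩ := (Z.AFinal.oneX hN).2 d F M
  have hg0 : M.IsGroundState 0 Φ0 := (H48.zero_iff hN M Φ0).2 h1
  have hi : Integrable (fun x => ‖Φ0 x‖ ^ 2) (leb d) := hg0.1.integrable_norm_pow (by norm_num)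
  have hpos : 0 < ∫ x, ‖Φ0 x‖ ^ 2 ∂leb d := by
    refine lt_of_le_of_ne (integral_nonneg fun x => by positivity) fun h => h2 ?_
    have h4 := (integral_eq_zero_iff_of_nonneg (fun x => by positivity) hi).1 h.symm
    filter_upwards [h4] with x hx
    simpa using hx
  set I : ℝ := ∫ x, ‖Φ0 x‖ ^ 2 ∂leb d with hI
  set r : ℝ := (Real.sqrt I)⁻¹ with hr
  have hr0 : r ≠ 0 := inv_ne_zero (Real.sqrt_pos.2 hpos).ne'
  have hrC : (r : ℂ) ≠ 0 := by exact_mod_cast hr0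
  have hg1 := ground_smul M hg0 (r : ℂ)
  obtain ⟨Φ, hΦ, hae⟩ := (ground_iff_class M).1 hg1
  refine ⟨Φ, hΦ, ?_, fun Ψ => ⟨fun h => ?_, ?_⟩⟩
  · have h5 : ∫ x, ‖Φ x‖ ^ 2 ∂leb d = ∫ x, r ^ 2 * ‖Φ0 x‖ ^ 2 ∂leb d := by
      refine integral_congr_ae ?_
      filter_upwards [hae] with x hx
      rw [← hx, norm_smul, mul_pow]
      simp
    rw [h5, integral_const_mul, ← hI, hr, inv_pow, Real.sq_sqrt hpos.le, inv_mul_cancel₀ hpos.ne']
  · obtain ⟨c, hc⟩ := h3 Ψ ((H48.zero_iff hN M Ψ).1 h)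
    refine ⟨c * (r : ℂ)⁻¹, ?_⟩
    filter_upwards [hc, hae] with x h5 h6
    rw [h5, ← h6, smul_smul, mul_assoc, inv_mul_cancel₀ hrC, mul_one]
  · rintro ⟨c, hc⟩
    exact ground_congr M (ground_smul M (ground_of_class M hΦ) c) hc

/-- the massive model has exactly `p(N)` classical vacua -/
theorem many_classical (hN : 2 ≤ N) (M : BFSS.Model N d F) {m : ℝ} (hm : 0 < m) :
    ∃ Φ : Fin (Fintype.card (Nat.Partition N)) → Conf d → F, (∀ j, M.IsClassicalVacuum m (Φ j)) ∧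
      (∀ c : Fin (Fintype.card (Nat.Partition N)) → ℂ, (∀ x, ∑ j, c j • Φ j x = 0) → c = 0) ∧
      ∀ Ψ, M.IsGroundState m Ψ ↔ ∃ c : Fin (Fintype.card (Nat.Partition N)) → ℂ,
        ∀ᵐ x ∂leb d, Ψ x = ∑ j, c j • Φ j x := by
  obtain ⟨Φ0, h1, h2, h3⟩ := H48.count_pos hN M hm
  choose Φ hΦ hae using fun j => (ground_iff_class M).1 (h1 j)
  have hall : ∀ᵐ x ∂leb d, ∀ j, Φ0 j x = Φ j x := ae_all_iff.2 hae
  refine ⟨Φ, hΦ, fun c hc => h2 c ?_, fun Ψ => ⟨fun h => ?_, ?_⟩⟩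
  · filter_upwards [hall] with x hx
    simp only [hx, hc x]
  · obtain ⟨c, hc⟩ := h3 Ψ h
    refine ⟨c, ?_⟩
    filter_upwards [hc, hall] with x h4 h5
    rw [h4]
    simp only [h5]
  · rintro ⟨c, hc⟩
    exact ground_congr M (ground_comb M (fun j => ground_of_class M (hΦ j)) c) hc

/-- the massless limit, with classical vacua -/
theorem massless_classical (hN : 2 ≤ N) (M : BFSS.Model N d F) {Φ : Conf d → F}
    (hΦ : M.IsClassicalVacuum 0 Φ) : ∃ Ψ : ℝ → Conf d → F,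
      (∀ m : ℝ, 0 < m → M.IsClassicalVacuum m (Ψ m)) ∧
      Tendsto (fun m : ℝ => ∫ x, ‖Ψ m x - Φ x‖ ^ 2 ∂leb d) (𝓝[>] 0) (𝓝 0) := by
  classical
  have hz : M.IsZeroEnergyState Φ := (H48.zero_iff hN M Φ).1 (ground_of_class M hΦ)
  obtain ⟨Ψ0, h1, h2⟩ := H48.massless hN M hz
  choose! Ψ hΨ hae using fun (m : ℝ) (hm : 0 < m) => (ground_iff_class M).1 (h1 m hm)
  refine ⟨Ψ, hΨ, h2.congr' ?_⟩
  filter_upwards [self_mem_nhdsWithin] with m hm
  refine integral_congr_ae ?_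
  filter_upwards [hae m hm] with x hx
  rw [hx]

/-- **The threshold bound state as a classical solution**, with everything in one statement. -/
theorem full (hN : 2 ≤ N) (M : BFSS.Model N d F) :
    ∃ Φ : Conf d → F, ContDiff ℝ ∞ Φ ∧ MemLp Φ 2 (leb d) ∧ ∫ x, ‖Φ x‖ ^ 2 ∂leb d = 1 ∧
      (∀ U x, Φ (M.act U x) = M.S U (Φ x)) ∧ (∀ α x, M.Q α Φ x = 0) ∧
      (∀ Ψ, M.IsZeroEnergyState Ψ ↔ IsMultiple Φ Ψ) ∧
      (∀ α Ψ, M.IsPhysical Ψ → M.IsDistSolution 0 α Ψ → IsMultiple Φ Ψ) ∧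
      M.IsEven Φ ∧ M.IsMasslessLimit Φ := by
  obtain ⟨Φ, h1, h2, h3⟩ := one_classical hN M
  have h0 : Φ ≠ fun _ => 0 := by
    rintro rfl
    simp at h2
  refine ⟨Φ, h1.1, h1.2.1, h2, h1.2.2.1, fun α x => ?_, fun Ψ => ?_, fun α Ψ hp hw => ?_,
    parity_of_unique M h1 h0 fun Ψ h => (h3 Ψ).1 h, massless_classical hN M h1⟩
  · rw [← mQ_zero]
    exact h1.2.2.2 α x
  · rw [← H48.zero_iff hN M Ψ]
    exact h3 Ψ
  · exact (h3 Ψ).1 ((ground0_iff M α).2 ⟨hp.1, hp.2, hw⟩)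

theorem basis (hN : 2 ≤ N) (M : BFSS.Model N d F) {m : ℝ} (hm : 0 < m) :
    ∃ Φ : Fin (Fintype.card (Nat.Partition N)) → Conf d → F, M.IsVacuumBasis m Φ :=
  many_classical hN M hm

end Vale.Agent.P353.H121
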