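import Vale.Agent.P353.H121.Conv
import Vale.Agent.P353.H48.Defs

/-! # P353: ground states of the mass-deformed model are the square integrable classical solutions
of one supercharge equation (helper121) -/

open MeasureTheory Filter Topology
open scoped ContDiff

namespace Vale.Agent.P353.H121

set_option linter.unusedSectionVars false

open Vale.Agent.P353.BFSS

variable {N d : ℕ} {F : Type*} [NormedAddCommGroup F] [InnerProductSpace ℂ F]
  (M : Model N d F)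

/-- indices of the terms of order zero -/
abbrev MK (d : ℕ) : Type := KK d ⊕ (Fin 9 × Fin d × Fin 16)

/-- monomials -/
noncomputable def mp : MK d → Conf d → ℝ
  | .inl k => cp k
  | .inr q => fun x => x (q.1, q.2.1)

/-- coefficients -/
noncomputable def mB (m : ℝ) (α : Fin 16) : MK d → F →L[ℂ] F
  | .inl k => cB M α k
  | .inr q => ((m * (Model.weight q.1 * (M.γ q.1 * (M.γ 0 * M.γ 1 * M.γ 2)) α q.2.2) : ℝ) : ℂ) •
      M.θ q.2.2 q.2.1

theorem massQ_eq (m : ℝ) (α : Fin 16) (u : Conf d → F) (x : Conf d) :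
    M.massQ m α u x = Dop (cA M α) (mp (d := d)) (mB M m α) u x := by
  unfold Model.massQ
  rw [Q_eq]
  unfold Dop
  rw [add_assoc, Fintype.sum_sum_type]
  congr 2
  simp only [Fintype.sum_prod_type, Finset.smul_sum, mp, mB, _root_.smul_apply, smul_smul]
  refine Finset.sum_congr rfl fun i _ => Finset.sum_congr rfl fun A _ =>
    Finset.sum_congr rfl fun β _ => ?_
  congr 1
  push_cast
  ring

theorem mB_symm (m : ℝ) (α : Fin 16) (k : MK d) (v w : F) :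
    inner ℂ (mB M m α k v) w = inner ℂ v (mB M m α k w) := by
  rcases k with k | q
  · exact cB_symm M α k v w
  · simp only [mB, _root_.smul_apply, inner_smul_left, inner_smul_right, M.θ_selfAdjoint,
      Complex.conj_ofReal]

theorem mp_smooth (k : MK d) : ContDiff ℝ ∞ (mp (d := d) k) := by
  rcases k with k | q
  · exact cp_smooth k
  · exact contDiff_euclidean.1 contDiff_id _

theorem mQ_smooth (m : ℝ) (α : Fin 16) {u : Conf d → F} (hu : ContDiff ℝ ∞ u) :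
    ContDiff ℝ ∞ (M.massQ m α u) := by
  have h1 : M.massQ m α u = Dop (cA M α) (mp (d := d)) (mB M m α) u :=
    funext fun x => massQ_eq M m α u x
  rw [h1]
  exact Dop_smooth _ _ mp_smooth hu

theorem mQ_supp (m : ℝ) (α : Fin 16) {u : Conf d → F} (hu : ContDiff ℝ ∞ u)
    (hc : HasCompactSupport u) : HasCompactSupport (M.massQ m α u) := by
  have h1 : M.massQ m α u = Dop (cA M α) (mp (d := d)) (mB M m α) u :=
    funext fun x => massQ_eq M m α u x
  rw [h1]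
  exact Dop_supp _ _ _ hu hc

theorem mQ_symm (m : ℝ) (α : Fin 16) {φ u : Conf d → F} (hφ : ContDiff ℝ ∞ φ)
    (hc : HasCompactSupport φ) (hu : ContDiff ℝ ∞ u) :
    ∫ x, inner ℂ (M.massQ m α φ x) (u x) ∂leb d = ∫ x, inner ℂ (φ x) (M.massQ m α u x) ∂leb d := by
  simp only [massQ_eq, leb]
  exact Dop_symm (cA_symm M α) (mB_symm M m α) mp_smooth hφ hc hu

theorem mQ_mem (m : ℝ) (α : Fin 16) {u : Conf d → F} (hu : ContDiff ℝ ∞ u)
    (hc : HasCompactSupport u) : MemLp (M.massQ m α u) 2 (leb d) :=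
  (mQ_smooth M m α hu).continuous.memLp_of_hasCompactSupport (mQ_supp M m α hu hc)

/-- `Ψ` solves `Q_α^{(m)} Ψ = 0` in the sense of distributions -/
def MWeak (m : ℝ) (α : Fin 16) (Ψ : Conf d → F) : Prop :=
  ∀ φ : Conf d → F, ContDiff ℝ ∞ φ → HasCompactSupport φ →
    ∫ x, inner ℂ (M.massQ m α φ x) (Ψ x) ∂leb d = 0

/-- the square of the norm -/
theorem norm_toLp_sq {f : Conf d → F} (hf : MemLp f 2 (leb d)) :
    ‖hf.toLp f‖ ^ 2 = ∫ x, ‖f x‖ ^ 2 ∂leb d := by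
  have h1 := norm_sub_sq hf (MemLp.zero (p := 2) (μ := leb d) (ε := F))
  rw [MemLp.toLp_zero, sub_zero] at h1
  rw [h1]
  refine integral_congr_ae (Eventually.of_forall fun x => ?_)
  simp only [Pi.zero_apply, sub_zero]

theorem mweak_of_ground {m : ℝ} {Ψ : Conf d → F} (h : M.IsGroundState m Ψ) (α : Fin 16) :
    MWeak M m α Ψ := by
  obtain ⟨hΨ, u, hu, hL, hE⟩ := h
  intro φ hφ hc
  have hum : ∀ n, MemLp (u n) 2 (leb d) := fun n => cs_mem (hu n).1 (hu n).2.1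
  have hQm : ∀ n, MemLp (M.massQ m α (u n)) 2 (leb d) := fun n => mQ_mem M m α (hu n).1 (hu n).2.1
  have h1 : Tendsto (fun n => (hQm n).toLp _) atTop (𝓝 (0 : Lp F 2 (leb d))) := by
    rw [tendsto_zero_iff_norm_tendsto_zero]
    have h2 : Tendsto (fun n => Real.sqrt (16 * M.massForm m (u n))) atTop (𝓝 0) := by
      simpa using (hE.const_mul 16).sqrt
    refine squeeze_zero (fun n => norm_nonneg _) (fun n => ?_) h2
    refine Real.le_sqrt_of_sq_le ?_
    rw [norm_toLp_sq (hQm n), Model.massForm]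
    have h4 : ∫ x, ‖M.massQ m α (u n) x‖ ^ 2 ∂leb d ≤ ∑ β, ∫ x, ‖M.massQ m β (u n) x‖ ^ 2 ∂leb d :=
      Finset.single_le_sum (f := fun β => ∫ x, ‖M.massQ m β (u n) x‖ ^ 2 ∂leb d)
        (fun i _ => integral_nonneg fun x => by positivity) (Finset.mem_univ α)
    linarith
  have h2 := tendsto_toLp hum hΨ hL
  have h3 : Tendsto (fun n => inner ℂ ((mQ_mem M m α hφ hc).toLp (M.massQ m α φ)) ((hum n).toLp (u n)))
      atTop (𝓝 (inner ℂ ((mQ_mem M m α hφ hc).toLp (M.massQ m α φ)) (hΨ.toLp Ψ))) :=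
    tendsto_const_nhds.inner h2
  have h4 : Tendsto (fun n => inner ℂ ((cs_mem hφ hc).toLp φ) ((hQm n).toLp _))
      atTop (𝓝 (inner ℂ ((cs_mem hφ hc).toLp φ) (0 : Lp F 2 (leb d)))) :=
    tendsto_const_nhds.inner h1
  have h5 : (fun n => (inner ℂ ((cs_mem hφ hc).toLp φ) ((hQm n).toLp _) : ℂ)) =
      fun n => inner ℂ ((mQ_mem M m α hφ hc).toLp (M.massQ m α φ)) ((hum n).toLp (u n)) := by
    ext n
    rw [inner_toLp, inner_toLp, mQ_symm M m α hφ hc (hu n).1]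
  rw [h5, inner_zero_right] at h4
  have h6 := tendsto_nhds_unique h3 h4
  rwa [inner_toLp] at h6

theorem inv_of_lim {Ψ : Conf d → F} (hΨ : MemLp Ψ 2 (leb d)) {u : ℕ → Conf d → F}
    (hu : ∀ n, M.IsCore (u n)) (hL : Tendsto (fun n => ∫ x, ‖u n x - Ψ x‖ ^ 2 ∂leb d) atTop (𝓝 0))
    (U : SU N) : ∀ᵐ x ∂leb d, Ψ (M.act U x) = M.S U (Ψ x) := by
  have hF : FiniteDimensional ℂ F := fdim M
  have hum : ∀ n, MemLp (u n) 2 (leb d) := fun n => cs_mem (hu n).1 (hu n).2.1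
  have hΨa : MemLp (fun x => Ψ (M.act U x)) 2 (leb d) := hΨ.comp_measurePreserving (act_mp M U)
  have hΨs : MemLp (fun x => M.S U (Ψ x)) 2 (leb d) := (M.S U).comp_memLp' hΨ
  have hua : ∀ n, MemLp (fun x => u n (M.act U x)) 2 (leb d) := fun n =>
    (hum n).comp_measurePreserving (act_mp M U)
  have h1 : Tendsto (fun n => (hua n).toLp _) atTop (𝓝 (hΨa.toLp _)) := by
    refine tendsto_toLp hua hΨa ?_
    have : ∀ n, ∫ x, ‖u n (M.act U x) - Ψ (M.act U x)‖ ^ 2 ∂leb d =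
        ∫ x, ‖u n x - Ψ x‖ ^ 2 ∂leb d := fun n =>
      (act_mp M U).integral_comp (act_emb M U) fun x => ‖u n x - Ψ x‖ ^ 2
    simp only [this]
    exact hL
  have h2 : Tendsto (fun n => (hua n).toLp _) atTop (𝓝 (hΨs.toLp _)) := by
    refine tendsto_toLp hua hΨs ?_
    have : ∀ n x, ‖u n (M.act U x) - M.S U (Ψ x)‖ = ‖u n x - Ψ x‖ := by
      intro n x
      rw [(hu n).2.2 U x, ← map_sub, M.S_isometry]
    simp only [this]
    exact hL
  have h3 := tendsto_nhds_unique h1 h2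
  filter_upwards [hΨa.coeFn_toLp, hΨs.coeFn_toLp] with x h4 h5
  rw [← h4, ← h5, h3]

/-- smooth representative of an invariant square integrable weak solution of one equation -/
theorem mrep {m : ℝ} {Ψ : Conf d → F} (hm : MemLp Ψ 2 (leb d))
    (hinv : ∀ U, ∀ᵐ x ∂leb d, Ψ (M.act U x) = M.S U (Ψ x)) (α : Fin 16)
    (hW : MWeak M m α Ψ) : ∃ Φ : Conf d → F, ContDiff ℝ ∞ Φ ∧ (∀ᵐ x ∂leb d, Ψ x = Φ x) ∧
      MemLp Φ 2 (leb d) ∧ ∀ U x, Φ (M.act U x) = M.S U (Φ x) := by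
  have hF : FiniteDimensional ℂ F := fdim M
  have hloc : LocallyIntegrable Ψ (leb d) := hm.locallyIntegrable (by norm_num)
  have h0 : ∃ Φ : Conf d → F, ContDiff ℝ ∞ Φ ∧ Ψ =ᵐ[leb d] Φ := by
    refine ell_reg (cA_symm M α) (mB_symm M m α) mp_smooth (Real.sqrt_nonneg 2)
      (elliptic M α) hloc fun φ h1 h2 => ?_
    rw [← hW φ h1 h2, leb]
    exact integral_congr_ae (Eventually.of_forall fun x => by simp only [massQ_eq])
  obtain ⟨Φ, hs, hae⟩ := h0
  refine ⟨Φ, hs, hae, (memLp_congr_ae hae).1 hm, fun U x => ?_⟩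
  have h1 : (fun x => Φ (M.act U x)) =ᵐ[leb d] fun x => M.S U (Φ x) := by
    have h2 : ∀ᵐ x ∂leb d, Ψ (M.act U x) = Φ (M.act U x) :=
      (act_mp M U).quasiMeasurePreserving.ae hae
    filter_upwards [h2, hae, hinv U] with x e1 e2 e3
    rw [← e1, e3, e2]
  have h3 : (fun x => Φ (M.act U x)) = fun x => M.S U (Φ x) :=
    (Continuous.ae_eq_iff_eq (leb d) (hs.continuous.comp (act_cont M U))
      ((M.S U).continuous.comp hs.continuous)).1 h1
  exact congrFun h3 x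

theorem mclassical {m : ℝ} {Ψ Φ : Conf d → F} (hs : ContDiff ℝ ∞ Φ)
    (hae : ∀ᵐ x ∂leb d, Ψ x = Φ x) (α : Fin 16) (hW : MWeak M m α Ψ) (x : Conf d) :
    M.massQ m α Φ x = 0 := by
  have hF : FiniteDimensional ℂ F := fdim M
  rw [massQ_eq]
  refine classical (cA_symm M α) (mB_symm M m α) mp_smooth hs (fun φ h1 h2 => ?_) x
  rw [← hW φ h1 h2, leb]
  refine integral_congr_ae ?_
  filter_upwards [hae] with x hx
  rw [← massQ_eq, hx]

/-- energy of the truncations of a solution of one equation -/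
theorem mtr {m : ℝ} {Φ : Conf d → F} (hs : ContDiff ℝ ∞ Φ) (hm : MemLp Φ 2 (leb d)) (α : Fin 16)
    (hQ : ∀ x, M.massQ m α Φ x = 0) :
    Tendsto (fun n => ∫ x, ‖M.massQ m α (tr Φ n) x‖ ^ 2 ∂leb d) atTop (𝓝 0) := by
  have hF : FiniteDimensional ℂ F := fdim M
  have hbound : ∃ K, 0 ≤ K ∧ ∀ n x, ‖M.massQ m α (tr Φ n) x‖ ≤ K / ((n : ℝ) + 1) * ‖Φ x‖ := by
    choose C hC using dr_bdd (d := d)
    have hC0 : ∀ k, 0 ≤ C k := fun k => (abs_nonneg _).trans (hC k 0)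
    refine ⟨∑ k, C k * ‖cA M α k‖, Finset.sum_nonneg fun k _ => by have := hC0 k; positivity,
      fun n x => ?_⟩
    have h1 : M.massQ m α (tr Φ n) x =
        (-Complex.I) • ∑ k, dr k (cn (d := d) n) x • cA M α k (Φ x) := by
      rw [massQ_eq]
      have h0 := Dop_mul (cA M α) (mp (d := d)) (mB M m α) (cn_smooth (d := d) n) hs x
      rw [← massQ_eq, ← massQ_eq, hQ, smul_zero, zero_add] at h0
      rw [← massQ_eq]
      exact h0
    rw [h1, norm_smul, norm_neg, Complex.norm_I, one_mul]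
    refine (norm_sum_le _ _).trans ?_
    rw [div_mul_eq_mul_div, Finset.sum_mul, Finset.sum_div]
    refine Finset.sum_le_sum fun k _ => ?_
    rw [norm_smul, cn_dr, norm_mul, Real.norm_eq_abs, Real.norm_eq_abs,
      abs_of_nonneg (by positivity : (0 : ℝ) ≤ ((n : ℝ) + 1)⁻¹)]
    have h2 := (cA M α k).le_opNorm (Φ x)
    have h3 := hC k (((n : ℝ) + 1)⁻¹ • x)
    have h4 := hC0 k
    calc ((n : ℝ) + 1)⁻¹ * |dr k (ct (d := d)) (((n : ℝ) + 1)⁻¹ • x)| * ‖cA M α k (Φ x)‖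
        ≤ ((n : ℝ) + 1)⁻¹ * C k * (‖cA M α k‖ * ‖Φ x‖) := by gcongr
      _ = C k * ‖cA M α k‖ * ‖Φ x‖ / ((n : ℝ) + 1) := by ring
  obtain ⟨K, hK, hb⟩ := hbound
  have hi : Integrable (fun x => ‖Φ x‖ ^ 2) (leb d) := hm.integrable_norm_pow (by norm_num)
  have h1 : ∀ n, ∫ x, ‖M.massQ m α (tr Φ n) x‖ ^ 2 ∂leb d ≤
      (K / ((n : ℝ) + 1)) ^ 2 * ∫ x, ‖Φ x‖ ^ 2 ∂leb d := by
    intro n
    rw [← integral_const_mul]
    refine integral_mono_of_nonneg (Eventually.of_forall fun x => by positivity)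
      (hi.const_mul _) (Eventually.of_forall fun x => ?_)
    have := hb n x
    simp only
    rw [← mul_pow]
    gcongr
  refine squeeze_zero (fun n => integral_nonneg fun x => by positivity) h1 ?_
  have h2 : Tendsto (fun n : ℕ => K / ((n : ℝ) + 1)) atTop (𝓝 0) :=
    tendsto_const_div_atTop_nhds_zero_nat K |>.comp (tendsto_add_atTop_nat 1) |>.congr
      fun n => by simp
  simpa using (h2.pow 2).mul_const (∫ x, ‖Φ x‖ ^ 2 ∂leb d)

/-- the truncations converge -/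
theorem tr_lim {Φ : Conf d → F} (hs : ContDiff ℝ ∞ Φ) (hm : MemLp Φ 2 (leb d)) :
    Tendsto (fun n => ∫ x, ‖tr Φ n x - Φ x‖ ^ 2 ∂leb d) atTop (𝓝 0) := by
  have h0 : (0 : ℝ) = ∫ x, (0 : ℝ) ∂leb d := by simp
  rw [h0]
  refine tendsto_integral_of_dominated_convergence (fun x => ‖Φ x‖ ^ 2) (fun n => ?_) ?_
    (fun n => ?_) ?_
  · exact (((((cn_smooth n).smul hs).continuous).sub hs.continuous).norm.pow 2).aestronglyMeasurable
  · exact hm.integrable_norm_pow (by norm_num)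
  · refine Eventually.of_forall fun x => ?_
    have e1 : tr Φ n x - Φ x = (cn n x - 1) • Φ x := by rw [sub_smul, one_smul, tr]
    rw [e1, norm_smul, norm_pow, norm_mul, norm_norm, norm_norm, mul_pow]
    have e2 : ‖cn (d := d) n x - 1‖ ≤ 1 := by
      rw [Real.norm_eq_abs, abs_le]
      have := ct_nonneg (((n : ℝ) + 1)⁻¹ • x)
      have := ct_le (((n : ℝ) + 1)⁻¹ • x)
      unfold cn
      constructor <;> linarith
    have e3 : ‖cn (d := d) n x - 1‖ ^ 2 ≤ 1 := pow_le_one₀ (norm_nonneg _) e2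
    exact mul_le_of_le_one_left (by positivity) e3
  · refine Eventually.of_forall fun x => ?_
    refine tendsto_const_nhds.congr' ?_
    filter_upwards [eventually_ge_atTop ⌈‖x‖⌉₊] with n hn
    have e1 : ‖x‖ ≤ n := (Nat.le_ceil _).trans (by exact_mod_cast hn)
    have e2 : cn (d := d) n x = 1 := by
      refine ct_one ?_
      rw [norm_smul, norm_inv, Real.norm_of_nonneg (by positivity : (0 : ℝ) ≤ (n : ℝ) + 1),
        inv_mul_le_iff₀ (by positivity)]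
      linarith
    simp [tr, e2]

theorem ground_congr {m : ℝ} {Ψ Φ : Conf d → F} (h : M.IsGroundState m Φ)
    (hae : ∀ᵐ x ∂leb d, Ψ x = Φ x) : M.IsGroundState m Ψ := by
  obtain ⟨hm, u, hu, hL, hE⟩ := h
  refine ⟨(memLp_congr_ae hae).2 hm, u, hu, ?_, hE⟩
  have : ∀ n, ∫ x, ‖u n x - Ψ x‖ ^ 2 ∂leb d = ∫ x, ‖u n x - Φ x‖ ^ 2 ∂leb d := by
    intro n
    refine integral_congr_ae ?_
    filter_upwards [hae] with x hx
    rw [hx]
  simp only [this]
  exact hL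

/-- a ground state has a smooth, exactly equivariant representative solving all the equations -/
theorem mclassical_of_ground {m : ℝ} {Ψ : Conf d → F} (h : M.IsGroundState m Ψ) :
    ∃ Φ : Conf d → F, ContDiff ℝ ∞ Φ ∧ (∀ᵐ x ∂leb d, Ψ x = Φ x) ∧ MemLp Φ 2 (leb d) ∧
      (∀ U x, Φ (M.act U x) = M.S U (Φ x)) ∧ ∀ α x, M.massQ m α Φ x = 0 := by
  obtain ⟨hΨ, u, hu, hL, hE⟩ := h
  obtain ⟨Φ, h1, h2, h3, h4⟩ := mrep M hΨ (inv_of_lim M hΨ hu hL) 0
    (mweak_of_ground M ⟨hΨ, u, hu, hL, hE⟩ 0)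
  exact ⟨Φ, h1, h2, h3, h4, fun α =>
    mclassical M h1 h2 α (mweak_of_ground M ⟨hΨ, u, hu, hL, hE⟩ α)⟩

/-- **One supercharge, no condition at infinity.** -/
theorem ground_iff_one {m : ℝ} (hQQ : ∀ u, M.IsCore u → ∀ α β,
      ∫ x, ‖M.massQ m α u x‖ ^ 2 ∂leb d = ∫ x, ‖M.massQ m β u x‖ ^ 2 ∂leb d) (α : Fin 16)
    {Ψ : Conf d → F} : M.IsGroundState m Ψ ↔ MemLp Ψ 2 (leb d) ∧
    (∀ U, ∀ᵐ x ∂leb d, Ψ (M.act U x) = M.S U (Ψ x)) ∧ MWeak M m α Ψ := by
  constructor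
  · rintro ⟨hΨ, u, hu, hL, hE⟩
    exact ⟨hΨ, inv_of_lim M hΨ hu hL, mweak_of_ground M ⟨hΨ, u, hu, hL, hE⟩ α⟩
  · rintro ⟨hm, hinv, hW⟩
    obtain ⟨Φ, hs, hae, hmΦ, hi⟩ := mrep M hm hinv α hW
    refine ground_congr M ⟨hmΦ, tr Φ, tr_core M hs hi, tr_lim hs hmΦ, ?_⟩ hae
    have h1 := mtr M hs hmΦ α (mclassical M hs hae α hW)
    have h2 : (fun n => M.massForm m (tr Φ n)) =
        fun n => ∫ x, ‖M.massQ m α (tr Φ n) x‖ ^ 2 ∂leb d := by
      funext n
      rw [Model.massForm, Finset.sum_congr rfl fun β _ => hQQ _ (tr_core M hs hi n) β α]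
      simp
    rw [h2]
    exact h1

/-- **No condition at infinity**, every mass. -/
theorem ground_iff_all {m : ℝ} {Ψ : Conf d → F} : M.IsGroundState m Ψ ↔ MemLp Ψ 2 (leb d) ∧
    (∀ U, ∀ᵐ x ∂leb d, Ψ (M.act U x) = M.S U (Ψ x)) ∧ ∀ α, MWeak M m α Ψ := by
  constructor
  · rintro ⟨hΨ, u, hu, hL, hE⟩
    exact ⟨hΨ, inv_of_lim M hΨ hu hL, mweak_of_ground M ⟨hΨ, u, hu, hL, hE⟩⟩
  · rintro ⟨hm, hinv, hW⟩
    obtain ⟨Φ, hs, hae, hmΦ, hi⟩ := mrep M hm hinv 0 (hW 0)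
    refine ground_congr M ⟨hmΦ, tr Φ, tr_core M hs hi, tr_lim hs hmΦ, ?_⟩ hae
    have h1 := fun α => mtr M hs hmΦ α (mclassical M hs hae α (hW α))
    simpa [Model.massForm] using
      (tendsto_finsetSum Finset.univ fun α _ => h1 α).const_mul (1 / 16 : ℝ)

end Vale.Agent.P353.H121
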