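import Vale.Agent.P353.H121.Mass
import Vale.Agent.P353.BdZ.B17

/-! # P353: all sixteen supercharges have the same energy on the physical core (helper121) -/

set_option linter.all false

open MeasureTheory Filter Topology
open scoped ContDiff

namespace Vale.Agent.P353.H121

open Vale.Agent.P353.Z Vale.Agent.P353.Z.U

variable {N d : ℕ} {F : Type*} [NormedAddCommGroup F] [InnerProductSpace ℂ F]

theorem massQ_zero (M : BFSS.Model N d F) (α : Fin 16) (u : BFSS.Conf d → F) (x : BFSS.Conf d) :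
    M.massQ 0 α u x = M.Q α u x := by
  simp [BFSS.Model.massQ]

/-- the square of a supercharge on the core does not depend on the supercharge -/
theorem sq_core (M : BFSS.Model N d F) {S : Setup d F} (hR : Rep M S) {u : BFSS.Conf d → F}
    (hu : M.IsCore u) (α : Fin 16) (x : BFSS.Conf d) :
    M.Q α (M.Q α u) x = S.Hm 0 u x := by
  have hF : FiniteDimensional ℂ F := finiteDimensional_of_model M
  have h0 : ∀ β (u : Cfg d → F), S.Qm 0 β u = S.Q β u := by
    intro β u
    funext x
    simp [Setup.Qm]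
  have hd : Differentiable ℝ u := hu.1.differentiable (by simp)
  have h1 : M.Q α u = S.Q α u := funext fun y => mb_Q hR α (hd y)
  have hs : ContDiff ℝ ∞ (M.Q α u) := Q_smooth M α hu.1
  have h2 : M.Q α (M.Q α u) x = S.Q α (S.Q α u) x := by
    rw [mb_Q hR α ((hs.differentiable (by simp)) x), h1]
  have hA := All.A1 S 0 α α u hu.1 x
  have hG : ∀ C, S.G C u x = 0 := fun C => gaussLaw M S hR u hu C x
  simp only [h0, if_true, Complex.ofReal_zero, zero_smul, add_zero, hG, smul_zero,
    Finset.sum_const_zero] at hA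
  rw [h2]
  have h3 : (2 : ℂ) • S.Q α (S.Q α u) x = (2 : ℂ) • S.Hm 0 u x := by
    rw [← hA, two_smul]
  exact smul_right_injective F (two_ne_zero) h3

theorem energy_eq (M : BFSS.Model N d F) {u : BFSS.Conf d → F} (hu : M.IsCore u) (α β : Fin 16) :
    ∫ x, ‖M.massQ 0 α u x‖ ^ 2 ∂BFSS.leb d = ∫ x, ‖M.massQ 0 β u x‖ ^ 2 ∂BFSS.leb d := by
  have hF : FiniteDimensional ℂ F := finiteDimensional_of_model M
  obtain ⟨S, hR⟩ := setS M
  have h1 : ∀ α, ((∫ x, ‖M.massQ 0 α u x‖ ^ 2 ∂BFSS.leb d : ℝ) : ℂ) =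
      ∫ x, inner ℂ (S.Hm 0 u x) (u x) ∂BFSS.leb d := by
    intro α
    have hs : ContDiff ℝ ∞ (M.Q α u) := Q_smooth M α hu.1
    have hc : HasCompactSupport (M.Q α u) := Q_supp M α hu.1 hu.2.1
    have h2 := Q_symm M α hs hc hu.1
    have h3 : ∫ x, inner ℂ (M.Q α (M.Q α u) x) (u x) ∂BFSS.leb d =
        ∫ x, inner ℂ (S.Hm 0 u x) (u x) ∂BFSS.leb d := by
      simp only [sq_core M hR hu]
    rw [← h3, h2]
    simp only [massQ_zero]
    refine Eq.trans (integral_ofReal (𝕜 := ℂ) (f := fun x => ‖M.Q α u x‖ ^ 2)).symm ?_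
    refine integral_congr_ae (Eventually.of_forall fun x => ?_)
    simp only [inner_self_eq_norm_sq_to_K]
    push_cast
    rfl
  exact Complex.ofReal_injective ((h1 α).trans (h1 β).symm)

/-- the kernel of the massless model: one equation, no condition at infinity -/
theorem ground0_iff (M : BFSS.Model N d F) (α : Fin 16) {Ψ : BFSS.Conf d → F} :
    M.IsGroundState 0 Ψ ↔ MemLp Ψ 2 (BFSS.leb d) ∧
    (∀ U, ∀ᵐ x ∂BFSS.leb d, Ψ (M.act U x) = M.S U (Ψ x)) ∧ MWeak M 0 α Ψ :=
  ground_iff_one M (fun u hu α β => energy_eq M hu α β) α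

end Vale.Agent.P353.H121
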