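import Vale.Agent.P353.H121.Act

/-! # P353: zero-energy states are weak solutions of `Q_α Ψ = 0`, and are smooth (helper121) -/

open MeasureTheory Filter Topology
open scoped ContDiff

namespace Vale.Agent.P353.H121

set_option linter.unusedSectionVars false

open Vale.Agent.P353.BFSS

variable {N d : ℕ} {F : Type*} [NormedAddCommGroup F] [InnerProductSpace ℂ F]
  (M : Model N d F)

instance leb1 : IsFiniteMeasureOnCompacts (leb d) :=
  inferInstanceAs (IsFiniteMeasureOnCompacts (volume : Measure (Conf d)))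

instance leb2 : IsLocallyFiniteMeasure (leb d) :=
  inferInstanceAs (IsLocallyFiniteMeasure (volume : Measure (Conf d)))

instance leb3 : (leb d).IsOpenPosMeasure :=
  inferInstanceAs ((volume : Measure (Conf d)).IsOpenPosMeasure)

theorem Q_smooth (α : Fin 16) {u : Conf d → F} (hu : ContDiff ℝ ∞ u) :
    ContDiff ℝ ∞ (M.Q α u) := by
  have h1 : M.Q α u = Dop (cA M α) (cp (d := d)) (cB M α) u := funext fun x => Q_eq M α u x
  rw [h1]
  exact Dop_smooth _ _ cp_smooth hu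

theorem Q_supp (α : Fin 16) {u : Conf d → F} (hu : ContDiff ℝ ∞ u) (hc : HasCompactSupport u) :
    HasCompactSupport (M.Q α u) := by
  have h1 : M.Q α u = Dop (cA M α) (cp (d := d)) (cB M α) u := funext fun x => Q_eq M α u x
  rw [h1]
  exact Dop_supp _ _ _ hu hc

theorem Q_sub (α : Fin 16) {u v : Conf d → F} (hu : ContDiff ℝ ∞ u) (hv : ContDiff ℝ ∞ v)
    (x : Conf d) : M.Q α (fun y => u y - v y) x = M.Q α u x - M.Q α v x := by
  simp only [Q_eq]
  exact Dop_sub _ _ _ hu hv x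

theorem Q_symm (α : Fin 16) {φ u : Conf d → F} (hφ : ContDiff ℝ ∞ φ) (hc : HasCompactSupport φ)
    (hu : ContDiff ℝ ∞ u) :
    ∫ x, inner ℂ (M.Q α φ x) (u x) ∂leb d = ∫ x, inner ℂ (φ x) (M.Q α u x) ∂leb d := by
  simp only [Q_eq, leb]
  exact Dop_symm (cA_symm M α) (cB_symm M α) cp_smooth hφ hc hu

theorem Q_mem (α : Fin 16) {u : Conf d → F} (hu : ContDiff ℝ ∞ u) (hc : HasCompactSupport u) :
    MemLp (M.Q α u) 2 (leb d) :=
  (Q_smooth M α hu).continuous.memLp_of_hasCompactSupport (Q_supp M α hu hc)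

theorem cs_mem {u : Conf d → F} (hu : ContDiff ℝ ∞ u) (hc : HasCompactSupport u) :
    MemLp u 2 (leb d) := hu.continuous.memLp_of_hasCompactSupport hc

theorem inner_toLp {f g : Conf d → F} (hf : MemLp f 2 (leb d)) (hg : MemLp g 2 (leb d)) :
    inner ℂ (hf.toLp f) (hg.toLp g) = ∫ x, inner ℂ (f x) (g x) ∂leb d := by
  rw [L2.inner_def]
  refine integral_congr_ae ?_
  filter_upwards [hf.coeFn_toLp, hg.coeFn_toLp] with x h1 h2
  rw [h1, h2]

/-- `Q_α u` as an element of `L²` -/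
noncomputable def tq (α : Fin 16) {u : Conf d → F} (hu : M.IsCore u) : Lp F 2 (leb d) :=
  (Q_mem M α hu.1 hu.2.1).toLp (M.Q α u)

theorem core_sub {u v : Conf d → F} (hu : M.IsCore u) (hv : M.IsCore v) :
    M.IsCore fun x => u x - v x := by
  refine ⟨hu.1.sub hv.1, hu.2.1.sub hv.2.1, fun U x => ?_⟩
  simp only [hu.2.2, hv.2.2, map_sub]

theorem tq_sub (α : Fin 16) {u v : Conf d → F} (hu : M.IsCore u) (hv : M.IsCore v) :
    tq M α (core_sub M hu hv) = tq M α hu - tq M α hv := by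
  unfold tq
  rw [← MemLp.toLp_sub]
  congr 1
  ext x
  exact Q_sub M α hu.1 hv.1 x

theorem form_eq {φ u : Conf d → F} (hφ : M.IsCore φ) (hu : M.IsCore u) :
    M.form φ u = (1 / 16 : ℂ) * ∑ α, inner ℂ (tq M α hφ) (tq M α hu) := by
  unfold Model.form tq
  simp only [inner_toLp]

theorem form_self {u : Conf d → F} (hu : M.IsCore u) :
    M.form u u = ((1 / 16 * ∑ α, ‖tq M α hu‖ ^ 2 : ℝ) : ℂ) := by
  rw [form_eq M hu hu]
  simp only [inner_self_eq_norm_sq_to_K]
  push_cast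
  rfl

theorem norm_sub_sq {f g : Conf d → F} (hf : MemLp f 2 (leb d)) (hg : MemLp g 2 (leb d)) :
    ‖hf.toLp f - hg.toLp g‖ ^ 2 = ∫ x, ‖f x - g x‖ ^ 2 ∂leb d := by
  rw [← MemLp.toLp_sub hf hg]
  have h1 := inner_toLp (hf.sub hg) (hf.sub hg)
  rw [inner_self_eq_norm_sq_to_K] at h1
  have h2 : ∫ x, inner ℂ ((f - g) x) ((f - g) x) ∂leb d =
      ((∫ x, ‖f x - g x‖ ^ 2 ∂leb d : ℝ) : ℂ) := by
    refine Eq.trans ?_ (integral_ofReal (𝕜 := ℂ) (f := fun x => ‖f x - g x‖ ^ 2))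
    refine integral_congr_ae (Eventually.of_forall fun x => ?_)
    simp only [inner_self_eq_norm_sq_to_K, Pi.sub_apply]
    push_cast
    rfl
  rw [h2] at h1
  have h3 : ((‖(hf.sub hg).toLp (f - g)‖ ^ 2 : ℝ) : ℂ) =
      ((∫ x, ‖f x - g x‖ ^ 2 ∂leb d : ℝ) : ℂ) := by
    rw [← h1]
    push_cast
    rfl
  exact Complex.ofReal_injective h3

/-- the images of the approximating sequence tend to `0` -/
theorem tq_zero {u : ℕ → Conf d → F} (hu : ∀ n, M.IsCore (u n))
    (hC : Tendsto (fun p : ℕ × ℕ => M.form (fun x => u p.1 x - u p.2 x) fun x => u p.1 x - u p.2 x)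
      atTop (𝓝 0))
    (hW : ∀ φ, M.IsCore φ → Tendsto (fun n => M.form φ (u n)) atTop (𝓝 0)) (α : Fin 16) :
    Tendsto (fun n => tq M α (hu n)) atTop (𝓝 0) := by
  have hF : FiniteDimensional ℂ F := fdim M
  have hFc : CompleteSpace F := FiniteDimensional.complete ℂ F
  have hcau : ∀ α, CauchySeq fun n => tq M α (hu n) := by
    intro α
    rw [cauchySeq_iff_tendsto_dist_atTop_0]
    have h1 : Tendsto (fun p : ℕ × ℕ => Real.sqrt (16 * (M.form (fun x => u p.1 x - u p.2 x)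
        fun x => u p.1 x - u p.2 x).re)) atTop (𝓝 0) := by
      have h2 := (Complex.continuous_re.tendsto 0).comp hC
      have h3 := (h2.const_mul 16).sqrt
      simpa using h3
    refine squeeze_zero (fun p => dist_nonneg) (fun p => ?_) h1
    rw [dist_eq_norm, ← tq_sub M α (hu p.1) (hu p.2), form_self M (core_sub M (hu p.1) (hu p.2)),
      Complex.ofReal_re]
    refine Real.le_sqrt_of_sq_le ?_
    have h4 : ‖tq M α (core_sub M (hu p.1) (hu p.2))‖ ^ 2 ≤
        ∑ α, ‖tq M α (core_sub M (hu p.1) (hu p.2))‖ ^ 2 :=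
      Finset.single_le_sum (f := fun α => ‖tq M α (core_sub M (hu p.1) (hu p.2))‖ ^ 2)
        (fun i _ => by positivity) (Finset.mem_univ α)
    linarith
  choose w hw using fun α => cauchySeq_tendsto_of_complete (hcau α)
  have h5 : ∀ φ (hφ : M.IsCore φ), ∑ α, inner ℂ (tq M α hφ) (w α) = 0 := by
    intro φ hφ
    have h6 : Tendsto (fun n => M.form φ (u n)) atTop
        (𝓝 ((1 / 16 : ℂ) * ∑ α, inner ℂ (tq M α hφ) (w α))) := by
      simp only [form_eq M hφ (hu _)]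
      refine Tendsto.const_mul _ (tendsto_finsetSum _ fun α _ => ?_)
      exact (tendsto_const_nhds (x := tq M α hφ)).inner (hw α)
    have h7 := tendsto_nhds_unique h6 (hW φ hφ)
    rcases mul_eq_zero.1 h7 with h | h
    · norm_num at h
    · exact h
  have h8 : Tendsto (fun n => ∑ α, inner ℂ (tq M α (hu n)) (w α)) atTop
      (𝓝 (∑ α, inner ℂ (w α) (w α))) :=
    tendsto_finsetSum _ fun α _ => (hw α).inner tendsto_const_nhds
  have h9 : ∑ α, (inner ℂ (w α) (w α) : ℂ) = 0 := by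
    refine tendsto_nhds_unique h8 ?_
    simp only [h5 _ (hu _)]
    exact tendsto_const_nhds
  have h10 : ∑ α, ‖w α‖ ^ 2 = 0 := by
    simp only [inner_self_eq_norm_sq_to_K] at h9
    have : ((∑ α, ‖w α‖ ^ 2 : ℝ) : ℂ) = 0 := by
      rw [← h9]
      push_cast
      rfl
    exact_mod_cast this
  have h11 : w α = 0 := by
    have := (Finset.sum_eq_zero_iff_of_nonneg (fun i _ => by positivity)).1 h10 α (Finset.mem_univ α)
    rw [← norm_eq_zero]
    exact pow_eq_zero_iff two_ne_zero |>.1 this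
  rw [← h11]
  exact hw α

/-- `Ψ` solves `Q_α Ψ = 0` in the sense of distributions -/
def WeakSol (α : Fin 16) (Ψ : Conf d → F) : Prop :=
  ∀ φ : Conf d → F, ContDiff ℝ ∞ φ → HasCompactSupport φ →
    ∫ x, inner ℂ (M.Q α φ x) (Ψ x) ∂leb d = 0

theorem tendsto_toLp {u : ℕ → Conf d → F} {Ψ : Conf d → F} (hu : ∀ n, MemLp (u n) 2 (leb d))
    (hΨ : MemLp Ψ 2 (leb d))
    (h : Tendsto (fun n => ∫ x, ‖u n x - Ψ x‖ ^ 2 ∂leb d) atTop (𝓝 0)) :
    Tendsto (fun n => (hu n).toLp (u n)) atTop (𝓝 (hΨ.toLp Ψ)) := by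
  rw [tendsto_iff_norm_sub_tendsto_zero]
  have h1 : (fun n => ‖(hu n).toLp (u n) - hΨ.toLp Ψ‖) =
      fun n => Real.sqrt (∫ x, ‖u n x - Ψ x‖ ^ 2 ∂leb d) := by
    ext n
    rw [← norm_sub_sq (hu n) hΨ, Real.sqrt_sq (norm_nonneg _)]
  rw [h1]
  simpa using h.sqrt

theorem weak_of_zes {Ψ : Conf d → F} (h : M.IsZeroEnergyState Ψ) (α : Fin 16) :
    WeakSol M α Ψ := by
  obtain ⟨hΨ, u, hu, hL, hC, hW⟩ := h
  intro φ hφ hc
  have h1 := tq_zero M hu hC hW α
  have hum : ∀ n, MemLp (u n) 2 (leb d) := fun n => cs_mem (hu n).1 (hu n).2.1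
  have h2 := tendsto_toLp hum hΨ hL
  have h3 : Tendsto (fun n => inner ℂ ((Q_mem M α hφ hc).toLp (M.Q α φ)) ((hum n).toLp (u n)))
      atTop (𝓝 (inner ℂ ((Q_mem M α hφ hc).toLp (M.Q α φ)) (hΨ.toLp Ψ))) :=
    tendsto_const_nhds.inner h2
  have h4 : Tendsto (fun n => inner ℂ ((cs_mem hφ hc).toLp φ) (tq M α (hu n)))
      atTop (𝓝 (inner ℂ ((cs_mem hφ hc).toLp φ) (0 : Lp F 2 (leb d)))) :=
    tendsto_const_nhds.inner h1
  have h5 : (fun n => (inner ℂ ((cs_mem hφ hc).toLp φ) (tq M α (hu n)) : ℂ)) =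
      fun n => inner ℂ ((Q_mem M α hφ hc).toLp (M.Q α φ)) ((hum n).toLp (u n)) := by
    ext n
    rw [tq, inner_toLp, inner_toLp, Q_symm M α hφ hc (hu n).1]
  rw [h5, inner_zero_right] at h4
  have h6 := tendsto_nhds_unique h3 h4
  rwa [inner_toLp] at h6

theorem invariant_of_zes {Ψ : Conf d → F} (h : M.IsZeroEnergyState Ψ) (U : SU N) :
    ∀ᵐ x ∂leb d, Ψ (M.act U x) = M.S U (Ψ x) := by
  obtain ⟨hΨ, u, hu, hL, -, -⟩ := h
  have hF : FiniteDimensional ℂ F := fdim M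
  have hum : ∀ n, MemLp (u n) 2 (leb d) := fun n => cs_mem (hu n).1 (hu n).2.1
  have hΨa : MemLp (fun x => Ψ (M.act U x)) 2 (leb d) := hΨ.comp_measurePreserving (act_mp M U)
  have hΨs : MemLp (fun x => M.S U (Ψ x)) 2 (leb d) := (M.S U).comp_memLp' hΨ
  have hua : ∀ n, MemLp (fun x => u n (M.act U x)) 2 (leb d) := fun n =>
    (hum n).comp_measurePreserving (act_mp M U)
  have h1 : Tendsto (fun n => (hua n).toLp _) atTop (𝓝 (hΨa.toLp _)) := by
    refine tendsto_toLp hua hΨa ?_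
    have : ∀ n, ∫ x, ‖u n (M.act U x) - Ψ (M.act U x)‖ ^ 2 ∂leb d =
        ∫ x, ‖u n x - Ψ x‖ ^ 2 ∂leb d := fun n =>
      (act_mp M U).integral_comp (act_emb M U) fun x => ‖u n x - Ψ x‖ ^ 2
    simp only [this]
    exact hL
  have h2 : Tendsto (fun n => (hua n).toLp _) atTop (𝓝 (hΨs.toLp _)) := by
    refine tendsto_toLp hua hΨs ?_
    have : ∀ n x, ‖u n (M.act U x) - M.S U (Ψ x)‖ = ‖u n x - Ψ x‖ := by
      intro n x
      rw [(hu n).2.2 U x, ← map_sub, M.S_isometry]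
    simp only [this]
    exact hL
  have h3 := tendsto_nhds_unique h1 h2
  filter_upwards [hΨa.coeFn_toLp, hΨs.coeFn_toLp] with x h4 h5
  rw [← h4, ← h5, h3]

/-- **Regularity of zero-energy states.** -/
theorem classical_of_zes {Ψ : Conf d → F} (h : M.IsZeroEnergyState Ψ) :
    ∃ Φ : Conf d → F, ContDiff ℝ ∞ Φ ∧ (∀ᵐ x ∂leb d, Ψ x = Φ x) ∧
      (∀ U x, Φ (M.act U x) = M.S U (Φ x)) ∧ ∀ α x, M.Q α Φ x = 0 := by
  have hF : FiniteDimensional ℂ F := fdim M
  have hloc : LocallyIntegrable Ψ (leb d) := h.1.locallyIntegrable (by norm_num)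
  obtain ⟨Φ, hs, hae⟩ := reg_one M 0 hloc (weak_of_zes M h 0)
  refine ⟨Φ, hs, hae, fun U x => ?_, fun α x => ?_⟩
  · have h1 : (fun x => Φ (M.act U x)) =ᵐ[leb d] fun x => M.S U (Φ x) := by
      have h2 : ∀ᵐ x ∂leb d, Ψ (M.act U x) = Φ (M.act U x) :=
        (act_mp M U).quasiMeasurePreserving.ae hae
      filter_upwards [h2, hae, invariant_of_zes M h U] with x e1 e2 e3
      rw [← e1, e3, e2]
    have h3 : (fun x => Φ (M.act U x)) = fun x => M.S U (Φ x) :=
      (Continuous.ae_eq_iff_eq (leb d) (hs.continuous.comp (act_cont M U))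
        ((M.S U).continuous.comp hs.continuous)).1 h1
    exact congrFun h3 x
  · rw [Q_eq]
    refine classical (cA_symm M α) (cB_symm M α) cp_smooth hs (fun φ h1 h2 => ?_) x
    rw [← weak_of_zes M h α φ h1 h2, leb]
    refine integral_congr_ae ?_
    filter_upwards [hae] with x hx
    rw [← Q_eq, hx]

end Vale.Agent.P353.H121
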